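import Vale.Agent.Lib.P015.Sieve

open Finset

namespace Vale.Agent.Lib.P015

/-- Truncated inclusion-exclusion sum. -/
noncomputable def truncS (Q : Finset ℕ) (x : ℕ → ℝ) (r : ℕ) : ℝ :=
  ∑ J ∈ Q.powerset, if J.card ≤ r then (-1 : ℝ) ^ J.card * ∏ p ∈ J, x p else 0

lemma truncS_empty (x : ℕ → ℝ) (r : ℕ) : truncS ∅ x r = 1 := by
  simp [truncS]

lemma truncS_zero (Q : Finset ℕ) (x : ℕ → ℝ) : truncS Q x 0 = 1 := by
  unfold truncS
  rw [Finset.sum_eq_single ∅]
  · simp
  · intro J _ hJ
    have : J.card ≠ 0 := by simpa [Finset.card_eq_zero] using hJ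
    simp [this]
  · simp

lemma truncS_insert (Q : Finset ℕ) (x : ℕ → ℝ) (q : ℕ) (hq : q ∉ Q) (r : ℕ) :
    truncS (insert q Q) x (r + 1) = truncS Q x (r + 1) - x q * truncS Q x r := by
  unfold truncS
  rw [Finset.sum_powerset_insert hq, sub_eq_add_neg, Finset.mul_sum, ← Finset.sum_neg_distrib]
  congr 1
  refine Finset.sum_congr rfl fun J hJ => ?_
  have hqJ : q ∉ J := fun h => hq (Finset.mem_powerset.mp hJ h)
  rw [Finset.card_insert_of_notMem hqJ, Finset.prod_insert hqJ]
  by_cases h : J.card ≤ r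
  · have h' : J.card + 1 ≤ r + 1 := by omega
    simp only [h', h, if_true]
    ring
  · have h' : ¬ (J.card + 1 ≤ r + 1) := by omega
    simp only [h', h, if_false]
    ring

/-- Bonferroni inequalities for products. -/
lemma bonferroni (Q : Finset ℕ) (x : ℕ → ℝ) (hx : ∀ p ∈ Q, 0 ≤ x p ∧ x p ≤ 1) :
    ∀ r, (Even r → ∏ p ∈ Q, (1 - x p) ≤ truncS Q x r) ∧
      (Odd r → truncS Q x r ≤ ∏ p ∈ Q, (1 - x p)) := by
  induction Q using Finset.induction_on with
  | empty =>
    intro r
    simp [truncS_empty]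
  | insert q Q hq ih =>
    have hx' : ∀ p ∈ Q, 0 ≤ x p ∧ x p ≤ 1 := fun p hp => hx p (mem_insert_of_mem hp)
    have ih' := ih hx'
    have hxq := hx q (mem_insert_self q Q)
    intro r
    rw [Finset.prod_insert hq]
    cases r with
    | zero =>
      constructor
      · intro _
        rw [truncS_zero]
        have h1 : ∏ p ∈ insert q Q, (1 - x p) ≤ 1 := by
          apply Finset.prod_le_one
          · intro p hp
            linarith [(hx p hp).2]
          · intro p hp
            linarith [(hx p hp).1]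
        rwa [Finset.prod_insert hq] at h1
      · intro h
        simp at h
    | succ r =>
      rw [truncS_insert Q x q hq r]
      have hA := ih' (r + 1)
      have hB := ih' r
      set P := ∏ p ∈ Q, (1 - x p) with hP
      constructor
      · intro he
        have hr : Odd r := Nat.not_even_iff_odd.mp (Nat.even_add_one.mp he)
        have h1 := hA.1 he
        have h2 := hB.2 hr
        have h3 := mul_le_mul_of_nonneg_left h2 hxq.1
        have e : (1 - x q) * P = P - x q * P := by ring
        rw [e]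
        linarith
      · intro ho
        have hr : Even r := by
          rcases Nat.even_or_odd r with h | h
          · exact h
          · exact absurd (h.add_one) (Nat.not_even_iff_odd.mpr ho)
        have h1 := hA.2 ho
        have h2 := hB.1 hr
        have h3 := mul_le_mul_of_nonneg_left h2 hxq.1
        have e : (1 - x q) * P = P - x q * P := by ring
        rw [e]
        linarith

lemma truncS_succ (Q : Finset ℕ) (x : ℕ → ℝ) (r : ℕ) :
    truncS Q x (r + 1) = truncS Q x r
      + (-1 : ℝ) ^ (r + 1) * ∑ J ∈ Q.powerset, if J.card = r + 1 then ∏ p ∈ J, x p else 0 := by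
  unfold truncS
  rw [Finset.mul_sum, ← Finset.sum_add_distrib]
  refine Finset.sum_congr rfl fun J _ => ?_
  by_cases h : J.card ≤ r
  · have h1 : J.card ≤ r + 1 := by omega
    have h2 : ¬ J.card = r + 1 := by omega
    simp only [h, h1, h2, if_true, if_false]
    ring
  · by_cases h1 : J.card = r + 1
    · have h2 : J.card ≤ r + 1 := by omega
      simp only [h, h1, h2, if_true, if_false]
      simp
    · have h2 : ¬ J.card ≤ r + 1 := by omega
      simp only [h, h1, h2, if_false]
      simp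

/-- Bound on an elementary symmetric function by the moment generating function. -/
lemma esym_le (Q : Finset ℕ) (x : ℕ → ℝ) (hx : ∀ p ∈ Q, 0 ≤ x p) (j : ℕ) :
    ∑ J ∈ Q.powerset, (if J.card = j then ∏ p ∈ J, x p else 0)
      ≤ Real.exp (3 * ∑ p ∈ Q, x p - j) := by
  set lam : ℝ := Real.exp 1 with hlam
  have hlam0 : 0 < lam := Real.exp_pos 1
  have hlam3 : lam ≤ 3 := by
    have := Real.exp_one_lt_d9
    rw [hlam]; linarith
  have hpow : lam ^ j = Real.exp j := by
    rw [hlam, ← Real.exp_nat_mul]; simp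
  have h1 : ∑ J ∈ Q.powerset, (if J.card = j then ∏ p ∈ J, x p else 0) * lam ^ j
      ≤ ∏ p ∈ Q, (1 + lam * x p) := by
    rw [Finset.prod_one_add]
    refine Finset.sum_le_sum fun J hJ => ?_
    have hJQ := Finset.mem_powerset.mp hJ
    have hnn : ∀ p ∈ J, 0 ≤ x p := fun p hp => hx p (hJQ hp)
    rw [Finset.prod_mul_distrib, Finset.prod_const]
    by_cases h : J.card = j
    · rw [if_pos h, h]
      apply le_of_eq
      ring
    · rw [if_neg h, zero_mul]
      have := Finset.prod_nonneg hnn
      positivity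
  have h2 : ∏ p ∈ Q, (1 + lam * x p) ≤ Real.exp (lam * ∑ p ∈ Q, x p) := by
    rw [Finset.mul_sum, Real.exp_sum]
    refine Finset.prod_le_prod (fun p hp => ?_) (fun p hp => ?_)
    · have := mul_nonneg hlam0.le (hx p hp)
      linarith
    · have := Real.add_one_le_exp (lam * x p)
      linarith
  have hsum0 : 0 ≤ ∑ p ∈ Q, x p := Finset.sum_nonneg hx
  have h3 : Real.exp (lam * ∑ p ∈ Q, x p) ≤ Real.exp (3 * ∑ p ∈ Q, x p) := by
    apply Real.exp_le_exp.mpr
    exact mul_le_mul_of_nonneg_right hlam3 hsum0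
  rw [← Finset.sum_mul, hpow] at h1
  have h4 := h1.trans (h2.trans h3)
  rw [sub_eq_add_neg, Real.exp_add, Real.exp_neg, ← div_eq_mul_inv]
  rw [le_div_iff₀ (Real.exp_pos _)]
  exact h4

/-- Upper bound on the truncated sum at the weights `x`. -/
lemma truncS_le (Q : Finset ℕ) (x : ℕ → ℝ) (hx : ∀ p ∈ Q, 0 ≤ x p ∧ x p ≤ 1) (r : ℕ)
    (hr : Even r) :
    truncS Q x r ≤ Real.exp (-∑ p ∈ Q, x p) + Real.exp (3 * ∑ p ∈ Q, x p - (r + 1 : ℕ)) := by
  have h1 := truncS_succ Q x r
  have hodd : Odd (r + 1) := hr.add_one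
  have h2 := (bonferroni Q x hx (r + 1)).2 hodd
  rw [h1, hodd.neg_one_pow] at h2
  have h3 := esym_le Q x (fun p hp => (hx p hp).1) (r + 1)
  have h4 : ∏ p ∈ Q, (1 - x p) ≤ Real.exp (-∑ p ∈ Q, x p) := by
    rw [← Finset.sum_neg_distrib, Real.exp_sum]
    refine Finset.prod_le_prod (fun p hp => ?_) (fun p hp => ?_)
    · linarith [(hx p hp).2]
    · have := Real.add_one_le_exp (-x p)
      linarith
  linarith

/-- Error sum. -/
lemma truncE_le (Q : Finset ℕ) (k : ℕ) : ∀ r : ℕ,
    (∑ J ∈ Q.powerset, if J.card ≤ r then ((k : ℝ) ^ J.card) else 0)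
      ≤ ((1 : ℝ) + k * Q.card) ^ r := by
  induction Q using Finset.induction_on with
  | empty =>
    intro r
    simp
  | insert q Q hq ih =>
    intro r
    rw [Finset.sum_powerset_insert hq, Finset.card_insert_of_notMem hq]
    cases r with
    | zero =>
      have h1 : (∑ J ∈ Q.powerset, if J.card ≤ 0 then ((k : ℝ) ^ J.card) else 0) ≤ 1 := by
        simpa using ih 0
      have h2 : (∑ J ∈ Q.powerset, if (insert q J).card ≤ 0 then ((k : ℝ) ^ (insert q J).card) else 0) = 0 := by
        refine Finset.sum_eq_zero fun J hJ => ?_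
        have : (insert q J).card ≠ 0 := by simp
        simp [this]
      rw [h2]
      simpa using h1
    | succ r =>
      have h2 : (∑ J ∈ Q.powerset, if (insert q J).card ≤ r + 1 then ((k : ℝ) ^ (insert q J).card) else 0)
          = k * ∑ J ∈ Q.powerset, if J.card ≤ r then ((k : ℝ) ^ J.card) else 0 := by
        rw [Finset.mul_sum]
        refine Finset.sum_congr rfl fun J hJ => ?_
        have hqJ : q ∉ J := fun h => hq (Finset.mem_powerset.mp hJ h)
        rw [Finset.card_insert_of_notMem hqJ]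
        by_cases h : J.card ≤ r
        · have h' : J.card + 1 ≤ r + 1 := by omega
          simp only [h, h', if_true]
          ring
        · have h' : ¬ (J.card + 1 ≤ r + 1) := by omega
          simp only [h, h', if_false]
          ring
      rw [h2]
      set A : ℝ := (1 : ℝ) + k * Q.card with hA
      have hA1 : 1 ≤ A := by
        have : (0 : ℝ) ≤ k * Q.card := by positivity
        linarith
      have hk0 : (0 : ℝ) ≤ k := by positivity
      have h3 := ih (r + 1)
      have h4 := mul_le_mul_of_nonneg_left (ih r) hk0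
      have e : (1 : ℝ) + k * ((Q.card + 1 : ℕ) : ℝ) = A + k := by
        rw [hA]; push_cast; ring
      rw [e]
      have h5 : A ^ (r + 1) + k * A ^ r ≤ (A + k) ^ (r + 1) := by
        have h6 : A ^ r ≤ (A + k) ^ r := pow_le_pow_left₀ (by linarith) (by linarith) r
        have h7 : A ^ (r + 1) = A * A ^ r := by ring
        have h8 : (A + k) ^ (r + 1) = (A + k) * (A + k) ^ r := by ring
        rw [h7, h8]
        have h9 : (A + k) * A ^ r ≤ (A + k) * (A + k) ^ r :=
          mul_le_mul_of_nonneg_left h6 (by linarith)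
        have e2 : (A + k) * A ^ r = A * A ^ r + k * A ^ r := by ring
        linarith
      linarith

/-- Count of an intersection of residue classes, with an explicit error term. -/
lemma count_approx (J : Finset ℕ) (hJ : ∀ p ∈ J, p.Prime) (k : ℕ) (C : ∀ p : ℕ, Finset (ZMod p))
    (hC : ∀ p ∈ J, (C p).card = k) (L : ℕ) (a : ℤ) :
    |(((Ico a (a + (L : ℤ))).filter (fun t : ℤ => ∀ p ∈ J, (t : ZMod p) ∈ C p)).card : ℝ)
      - L * ∏ p ∈ J, ((k : ℝ) / p)| ≤ (k : ℝ) ^ J.card := by
  classical
  obtain ⟨h1, h2⟩ := card_interval_bounds J hJ C L a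
  set N := ((Ico a (a + (L : ℤ))).filter (fun t : ℤ => ∀ p ∈ J, (t : ZMod p) ∈ C p)).card with hN
  set T := ∏ p ∈ J, p with hT
  have hTpos : 0 < T := Finset.prod_pos fun p hp => (hJ p hp).pos
  have hprodC : ∏ p ∈ J, (C p).card = k ^ J.card := by
    rw [Finset.prod_congr rfl hC, Finset.prod_const]
  rw [hprodC] at h1 h2
  set m := L / T with hm
  have hm1 : m * T ≤ L := Nat.div_mul_le_self L T
  have hm2 : L < (m + 1) * T := by
    have := Nat.lt_div_mul_add (a := L) hTpos
    rw [← hm] at this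
    have e : (m + 1) * T = m * T + T := by ring
    omega
  have hTr : (0 : ℝ) < (T : ℝ) := by exact_mod_cast hTpos
  have hprod : (L : ℝ) * ∏ p ∈ J, ((k : ℝ) / p) = (L : ℝ) / T * (k : ℝ) ^ J.card := by
    rw [Finset.prod_div_distrib, Finset.prod_const, hT]
    push_cast
    ring
  rw [hprod]
  have hm1r : (m : ℝ) ≤ (L : ℝ) / T := by
    rw [le_div_iff₀ hTr]
    exact_mod_cast hm1
  have hm2r : (L : ℝ) / T ≤ (m : ℝ) + 1 := by
    rw [div_le_iff₀ hTr]
    have : ((L : ℕ) : ℝ) ≤ (((m + 1) * T : ℕ) : ℝ) := by exact_mod_cast hm2.le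
    push_cast at this
    exact this
  have h1r : (m : ℝ) * (k : ℝ) ^ J.card ≤ (N : ℝ) := by exact_mod_cast h1
  have h2r : (N : ℝ) ≤ ((m : ℝ) + 1) * (k : ℝ) ^ J.card := by exact_mod_cast h2
  have hkpow : (0 : ℝ) ≤ (k : ℝ) ^ J.card := by positivity
  have a1 := mul_le_mul_of_nonneg_right hm1r hkpow
  have a2 := mul_le_mul_of_nonneg_right hm2r hkpow
  rw [abs_le]
  constructor
  · have e : ((m : ℝ) + 1) * (k : ℝ) ^ J.card = (m : ℝ) * (k : ℝ) ^ J.card + (k : ℝ) ^ J.card := by
      ring
    linarith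
  · have e : ((m : ℝ) + 1) * (k : ℝ) ^ J.card = (m : ℝ) * (k : ℝ) ^ J.card + (k : ℝ) ^ J.card := by
      ring
    linarith

/-- The truncated (Brun pure) sieve. -/
lemma lineSieve_brun (k r : ℕ) (Q : Finset ℕ) (hQ : ∀ p ∈ Q, p.Prime) (hr : Even r)
    (L : ℕ) (hL : 0 < L) (ε : ℝ)
    (hε : truncS Q (fun p => (k : ℝ) / p) r + ((1 : ℝ) + k * Q.card) ^ r / L ≤ ε) :
    LineSieve k Q L ε := by
  classical
  intro C hC a
  set I := Ico a (a + (L : ℤ)) with hI
  set ind : ℤ → ℕ → ℝ := fun t p => if (t : ZMod p) ∈ C p then 1 else 0 with hind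
  have hstep1 : (((I.filter (fun t : ℤ => ∀ p ∈ Q, (t : ZMod p) ∉ C p)).card : ℕ) : ℝ)
      ≤ ∑ t ∈ I, truncS Q (ind t) r := by
    rw [Finset.card_filter]
    push_cast
    refine Finset.sum_le_sum fun t _ => ?_
    have hb := (bonferroni Q (ind t) (fun p _ => by
      simp only [hind]
      split_ifs <;> norm_num) r).1 hr
    refine le_trans (le_of_eq ?_) hb
    by_cases hall : ∀ p ∈ Q, (t : ZMod p) ∉ C p
    · rw [if_pos hall]
      symm
      apply Finset.prod_eq_one
      intro p hp
      simp [hind, hall p hp]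
    · rw [if_neg hall]
      push Not at hall
      obtain ⟨p, hp, htp⟩ := hall
      symm
      apply Finset.prod_eq_zero hp
      simp [hind, htp]
  have hstep2 : ∑ t ∈ I, truncS Q (ind t) r
      = ∑ J ∈ Q.powerset, if J.card ≤ r then (-1 : ℝ) ^ J.card *
        (((I.filter (fun t : ℤ => ∀ p ∈ J, (t : ZMod p) ∈ C p)).card : ℕ) : ℝ) else 0 := by
    unfold truncS
    rw [Finset.sum_comm]
    refine Finset.sum_congr rfl fun J _ => ?_
    by_cases h : J.card ≤ r
    · simp only [h, if_true]
      rw [← Finset.mul_sum]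
      congr 1
      rw [Finset.card_filter]
      push_cast
      refine Finset.sum_congr rfl fun t _ => ?_
      simp only [hind]
      rw [Finset.prod_ite_zero]
      simp
    · simp [h]
  have hstep3 : (∑ J ∈ Q.powerset, if J.card ≤ r then (-1 : ℝ) ^ J.card *
        (((I.filter (fun t : ℤ => ∀ p ∈ J, (t : ZMod p) ∈ C p)).card : ℕ) : ℝ) else 0)
      ≤ L * truncS Q (fun p => (k : ℝ) / p) r
        + ∑ J ∈ Q.powerset, if J.card ≤ r then ((k : ℝ) ^ J.card) else 0 := by
    unfold truncS
    rw [Finset.mul_sum, ← Finset.sum_add_distrib]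
    refine Finset.sum_le_sum fun J hJ => ?_
    by_cases h : J.card ≤ r
    · simp only [h, if_true]
      have hJQ := Finset.mem_powerset.mp hJ
      have happ := count_approx J (fun p hp => hQ p (hJQ hp)) k C (fun p hp => hC p (hJQ hp)) L a
      rw [← hI] at happ
      set N : ℝ := (((I.filter (fun t : ℤ => ∀ p ∈ J, (t : ZMod p) ∈ C p)).card : ℕ) : ℝ) with hN
      set M : ℝ := (L : ℝ) * ∏ p ∈ J, ((k : ℝ) / p) with hM
      have e : (L : ℝ) * ((-1 : ℝ) ^ J.card * ∏ p ∈ J, ((k : ℝ) / p)) = (-1 : ℝ) ^ J.card * M := by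
        rw [hM]; ring
      rw [e]
      have habs := abs_le.mp happ
      rcases Nat.even_or_odd J.card with he | ho
      · rw [he.neg_one_pow]
        linarith [habs.2]
      · rw [ho.neg_one_pow]
        linarith [habs.1]
    · simp [h]
  have hLr : (0 : ℝ) < (L : ℝ) := by exact_mod_cast hL
  have hstep4 := truncE_le Q k r
  calc _ ≤ ∑ t ∈ I, truncS Q (ind t) r := hstep1
    _ ≤ L * truncS Q (fun p => (k : ℝ) / p) r + ((1 : ℝ) + k * Q.card) ^ r := by
        rw [hstep2]
        exact hstep3.trans (by linarith)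
    _ = (truncS Q (fun p => (k : ℝ) / p) r + ((1 : ℝ) + k * Q.card) ^ r / L) * L := by
        field_simp
    _ ≤ ε * L := mul_le_mul_of_nonneg_right hε hLr.le

end Vale.Agent.Lib.P015
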