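import Mathlib

open ArithmeticFunction Finset

namespace Vale.Agent.Lib.P015


/-- Interchange of a divisor double sum. -/
lemma sum_Icc_sum_divisors (n : ℕ) (g : ℕ → ℕ → ℝ) :
    ∑ m ∈ Icc 1 n, ∑ d ∈ m.divisors, g d (m / d)
      = ∑ d ∈ Icc 1 n, ∑ e ∈ Icc 1 (n / d), g d e := by
  rw [Finset.sum_sigma', Finset.sum_sigma']
  refine Finset.sum_bij' (fun x _ => ⟨x.2, x.1 / x.2⟩) (fun y _ => ⟨y.1 * y.2, y.1⟩) ?_ ?_ ?_ ?_ ?_
  · rintro ⟨m, d⟩ h
    simp only [mem_sigma, mem_Icc, Nat.mem_divisors] at h ⊢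
    obtain ⟨⟨hm1, hmn⟩, hd, hm0⟩ := h
    have hdpos : 0 < d := Nat.pos_of_dvd_of_pos hd (by omega)
    have hle : d ≤ m := Nat.le_of_dvd (by omega) hd
    refine ⟨⟨hdpos, by omega⟩, ?_, ?_⟩
    · exact Nat.div_pos hle hdpos
    · exact Nat.div_le_div_right hmn
  · rintro ⟨d, e⟩ h
    simp only [mem_sigma, mem_Icc, Nat.mem_divisors] at h ⊢
    obtain ⟨⟨hd1, hdn⟩, he1, hen⟩ := h
    have hle : d * e ≤ n := by
      have := (Nat.le_div_iff_mul_le (by omega : 0 < d)).mp hen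
      linarith [Nat.mul_comm d e]
    refine ⟨⟨Nat.mul_pos (by omega) (by omega), hle⟩, Dvd.intro _ rfl, ?_⟩
    exact (Nat.mul_pos (by omega) (by omega)).ne'
  · rintro ⟨m, d⟩ h
    simp only [mem_sigma, mem_Icc, Nat.mem_divisors] at h
    obtain ⟨⟨hm1, hmn⟩, hd, hm0⟩ := h
    simp only [Sigma.mk.injEq, heq_eq_eq, and_true]
    exact Nat.mul_div_cancel' hd
  · rintro ⟨d, e⟩ h
    simp only [mem_sigma, mem_Icc] at h
    obtain ⟨⟨hd1, hdn⟩, he1, hen⟩ := h
    simp only [Sigma.mk.injEq, heq_eq_eq, true_and]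
    exact Nat.mul_div_cancel_left e (by omega)
  · rintro ⟨m, d⟩ h
    rfl

lemma sum_log_eq (n : ℕ) :
    ∑ m ∈ Icc 1 n, Real.log m = ∑ d ∈ Icc 1 n, Λ d * ((n / d : ℕ) : ℝ) := by
  have h := sum_Icc_sum_divisors n (fun d _ => Λ d)
  calc ∑ m ∈ Icc 1 n, Real.log m = ∑ m ∈ Icc 1 n, ∑ d ∈ m.divisors, Λ d := by
        refine Finset.sum_congr rfl fun m _ => ?_
        exact vonMangoldt_sum.symm
    _ = ∑ d ∈ Icc 1 n, ∑ e ∈ Icc 1 (n / d), Λ d := h
    _ = _ := by
        refine Finset.sum_congr rfl fun d _ => ?_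
        simp [mul_comm]

lemma sum_log_lower (n : ℕ) : (n : ℝ) * Real.log n - n ≤ ∑ m ∈ Icc 1 n, Real.log m := by
  induction n with
  | zero => simp
  | succ n ih =>
    rw [Finset.sum_Icc_succ_top (by omega)]
    rcases Nat.eq_zero_or_pos n with rfl | hn
    · simp
    have hn' : (0 : ℝ) < n := by exact_mod_cast hn
    have key : (n : ℝ) * (Real.log (n + 1) - Real.log n) ≤ 1 := by
      have : Real.log ((n + 1 : ℝ) / n) ≤ (n + 1 : ℝ) / n - 1 :=
        Real.log_le_sub_one_of_pos (by positivity)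
      rw [Real.log_div (by positivity) (by positivity)] at this
      have h2 : (n + 1 : ℝ) / n - 1 = 1 / n := by field_simp; ring
      rw [h2] at this
      calc (n : ℝ) * (Real.log (n + 1) - Real.log n) ≤ n * (1 / n) := by
            exact mul_le_mul_of_nonneg_left this hn'.le
        _ = 1 := by field_simp
    push_cast
    nlinarith

lemma sum_log_upper (n : ℕ) : ∑ m ∈ Icc 1 n, Real.log m ≤ (n : ℝ) * Real.log n := by
  calc ∑ m ∈ Icc 1 n, Real.log m ≤ ∑ _m ∈ Icc 1 n, Real.log n := by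
        refine Finset.sum_le_sum fun m hm => ?_
        have := mem_Icc.mp hm
        exact Real.log_le_log (by exact_mod_cast (by omega : 0 < m)) (by exact_mod_cast this.2)
    _ = _ := by simp

/-- Lower Mertens bound for the von Mangoldt function. -/
lemma mertens_lower (n : ℕ) (hn : 1 ≤ n) :
    Real.log n - 1 ≤ ∑ d ∈ Icc 1 n, Λ d / d := by
  have hn' : (0 : ℝ) < n := by exact_mod_cast hn
  have h1 := sum_log_lower n
  rw [sum_log_eq] at h1
  have h2 : ∑ d ∈ Icc 1 n, Λ d * ((n / d : ℕ) : ℝ) ≤ n * ∑ d ∈ Icc 1 n, Λ d / d := by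
    rw [Finset.mul_sum]
    refine Finset.sum_le_sum fun d hd => ?_
    have hd1 := (mem_Icc.mp hd).1
    have hdpos : (0 : ℝ) < d := by exact_mod_cast hd1
    have : ((n / d : ℕ) : ℝ) ≤ (n : ℝ) / d := Nat.cast_div_le
    calc Λ d * ((n / d : ℕ) : ℝ) ≤ Λ d * ((n : ℝ) / d) :=
          mul_le_mul_of_nonneg_left this vonMangoldt_nonneg
      _ = n * (Λ d / d) := by ring
  have h3 : (n : ℝ) * (Real.log n - 1) ≤ n * ∑ d ∈ Icc 1 n, Λ d / d := by nlinarith
  exact le_of_mul_le_mul_left h3 hn'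

lemma sum_Icc_vonMangoldt_eq_psi (n : ℕ) : ∑ d ∈ Icc 1 n, Λ d = Chebyshev.psi n := by
  rw [Chebyshev.psi_eq_sum_Icc, Nat.floor_natCast]
  have : Icc 0 n = insert 0 (Icc 1 n) := by
    ext x; simp only [mem_Icc, mem_insert]; omega
  rw [this, Finset.sum_insert (by simp)]
  simp

/-- Upper Mertens bound for the von Mangoldt function. -/
lemma mertens_upper (n : ℕ) (hn : 1 ≤ n) :
    ∑ d ∈ Icc 1 n, Λ d / d ≤ Real.log n + (Real.log 4 + 4) := by
  have hn' : (0 : ℝ) < n := by exact_mod_cast hn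
  have h1 := sum_log_upper n
  rw [sum_log_eq] at h1
  have h2 : n * ∑ d ∈ Icc 1 n, Λ d / d
      ≤ ∑ d ∈ Icc 1 n, Λ d * ((n / d : ℕ) : ℝ) + ∑ d ∈ Icc 1 n, Λ d := by
    rw [Finset.mul_sum, ← Finset.sum_add_distrib]
    refine Finset.sum_le_sum fun d hd => ?_
    have hd1 := (mem_Icc.mp hd).1
    have hdpos : (0 : ℝ) < d := by exact_mod_cast hd1
    have : (n : ℝ) / d ≤ ((n / d : ℕ) : ℝ) + 1 := by
      have := Nat.lt_floor_add_one ((n : ℝ) / d)
      rw [Nat.floor_div_eq_div] at this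
      exact this.le
    have hL := @vonMangoldt_nonneg d
    calc n * (Λ d / d) = Λ d * ((n : ℝ) / d) := by ring
      _ ≤ Λ d * (((n / d : ℕ) : ℝ) + 1) := mul_le_mul_of_nonneg_left this hL
      _ = _ := by ring
  have h3 : ∑ d ∈ Icc 1 n, Λ d ≤ (Real.log 4 + 4) * n := by
    rw [sum_Icc_vonMangoldt_eq_psi]
    exact Chebyshev.psi_le_const_mul_self (by positivity)
  have h4 : (n : ℝ) * ∑ d ∈ Icc 1 n, Λ d / d ≤ n * (Real.log n + (Real.log 4 + 4)) := by
    nlinarith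
  exact le_of_mul_le_mul_left h4 hn'


/-- The nonprincipal character modulo four, as a real valued function. -/
noncomputable def chi (n : ℕ) : ℝ := ((ZMod.χ₄ (n : ZMod 4) : ℤ) : ℝ)

lemma chi_mul (m n : ℕ) : chi (m * n) = chi m * chi n := by
  simp [chi, map_mul]

lemma chi_of_mod_one {n : ℕ} (h : n % 4 = 1) : chi n = 1 := by
  simp [chi, ZMod.χ₄_nat_one_mod_four h]

lemma chi_of_mod_three {n : ℕ} (h : n % 4 = 3) : chi n = -1 := by
  simp [chi, ZMod.χ₄_nat_three_mod_four h]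

lemma chi_of_even {n : ℕ} (h : n % 2 = 0) : chi n = 0 := by
  have h4 : n % 4 = 0 ∨ n % 4 = 2 := by omega
  unfold chi
  rw [ZMod.χ₄_nat_mod_four]
  rcases h4 with h4 | h4 <;> rw [h4]
  · have : ZMod.χ₄ ((0 : ℕ) : ZMod 4) = 0 := by decide
    rw [this]; simp
  · have : ZMod.χ₄ ((2 : ℕ) : ZMod 4) = 0 := by decide
    rw [this]; simp

lemma chi_odd (h : ℕ) : chi (2 * h + 1) = (-1) ^ h := by
  rcases Nat.even_or_odd h with he | ho
  · rw [chi_of_mod_one (by obtain ⟨r, rfl⟩ := he; omega), he.neg_one_pow]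
  · rw [chi_of_mod_three (by obtain ⟨r, rfl⟩ := ho; omega), ho.neg_one_pow]

lemma chi_abs_le (n : ℕ) : |chi n| ≤ 1 := by
  rcases Nat.even_or_odd' n with ⟨h, rfl | rfl⟩
  · rw [chi_of_even (by omega)]; simp
  · rw [chi_odd]; simp

/-- Summing a function against `chi` is an alternating sum over the odd integers. -/
lemma sum_chi_eq (f : ℕ → ℝ) (x : ℕ) :
    ∑ n ∈ Icc 1 x, chi n * f n = ∑ i ∈ range ((x + 1) / 2), (-1) ^ i * f (2 * i + 1) := by
  induction x with
  | zero => simp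
  | succ x ih =>
    rw [Finset.sum_Icc_succ_top (by omega), ih]
    rcases Nat.even_or_odd' x with ⟨h, rfl | rfl⟩
    · have e1 : (2 * h + 1) / 2 = h := by omega
      have e2 : (2 * h + 1 + 1) / 2 = h + 1 := by omega
      rw [e1, e2, Finset.sum_range_succ, chi_odd]
    · have e1 : (2 * h + 1 + 1) / 2 = h + 1 := by omega
      have e2 : (2 * h + 1 + 1 + 1) / 2 = h + 1 := by omega
      rw [e1, e2, chi_of_even (by omega)]
      simp

lemma alt_sum_bounds (n : ℕ) : ∀ (g : ℕ → ℝ), Antitone g → (∀ i, 0 ≤ g i) →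
    0 ≤ ∑ i ∈ range n, (-1) ^ i * g i ∧ ∑ i ∈ range n, (-1) ^ i * g i ≤ g 0 := by
  induction n with
  | zero => intro g _ h0; simpa using h0 0
  | succ n ih =>
    intro g hg h0
    have h := ih (fun i => g (i + 1)) (fun a b hab => hg (by omega)) (fun i => h0 _)
    have e : ∑ i ∈ range (n + 1), (-1) ^ i * g i
        = g 0 - ∑ i ∈ range n, (-1) ^ i * g (i + 1) := by
      rw [Finset.sum_range_succ']
      simp only [pow_succ, pow_zero, one_mul]
      rw [sub_eq_add_neg, add_comm, ← Finset.sum_neg_distrib]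
      congr 1
      refine Finset.sum_congr rfl fun i _ => ?_
      ring
    rw [e]
    have := hg (Nat.zero_le 1)
    constructor <;> linarith [h.1, h.2]

/-- Leibniz partial sums. -/
noncomputable def leib (j : ℕ) : ℝ := ∑ i ∈ range j, (-1) ^ i * (1 / (2 * (i : ℝ) + 1))

lemma leib_close (j : ℕ) : |leib j - Real.pi / 4| ≤ 1 / (2 * (j : ℝ) + 1) := by
  have hanti : Antitone (fun i : ℕ => 1 / (2 * (i : ℝ) + 1)) := by
    intro a b hab
    have : (a : ℝ) ≤ b := by exact_mod_cast hab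
    simp only
    gcongr
  have hlim : Filter.Tendsto (fun n => ∑ i ∈ range n, (-1) ^ i * (1 / (2 * (i : ℝ) + 1)))
      Filter.atTop (nhds (Real.pi / 4)) := by
    have := Real.tendsto_sum_pi_div_four
    refine this.congr fun n => ?_
    refine Finset.sum_congr rfl fun i _ => ?_
    ring
  have h1 := Antitone.alternating_series_le_tendsto hlim hanti
  have h2 := Antitone.tendsto_le_alternating_series hlim hanti
  have hpos : (0 : ℝ) < 1 / (2 * (j : ℝ) + 1) := by positivity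
  unfold leib
  rcases Nat.even_or_odd' j with ⟨k, rfl | rfl⟩
  · have a1 := h1 k
    have a2 := h2 k
    rw [Finset.sum_range_succ] at a2
    have : (-1 : ℝ) ^ (2 * k) = 1 := by simp
    rw [this, one_mul] at a2
    rw [abs_le]
    push_cast at *
    constructor <;> linarith
  · have a1 := h2 k
    have a2 := h1 (k + 1)
    have e : 2 * (k + 1) = 2 * k + 1 + 1 := by ring
    rw [e, Finset.sum_range_succ] at a2
    have : (-1 : ℝ) ^ (2 * k + 1) = -1 := by simp [pow_succ]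
    rw [this] at a2
    rw [abs_le]
    push_cast at *
    constructor <;> linarith

/-- Partial sums of the `L`-series at one. -/
noncomputable def chiSum (y : ℕ) : ℝ := ∑ m ∈ Icc 1 y, chi m * (1 / (m : ℝ))

lemma chiSum_close (y : ℕ) : |chiSum y - Real.pi / 4| ≤ 1 / ((y : ℝ) + 1) := by
  have e : chiSum y = leib ((y + 1) / 2) := by
    unfold chiSum leib
    rw [sum_chi_eq]
    refine Finset.sum_congr rfl fun i _ => ?_
    push_cast
    ring
  rw [e]
  refine (leib_close _).trans ?_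
  have : (y : ℝ) + 1 ≤ 2 * (((y + 1) / 2 : ℕ) : ℝ) + 1 := by
    have : y + 1 ≤ 2 * ((y + 1) / 2) + 1 := by omega
    exact_mod_cast this
  exact one_div_le_one_div_of_le (by positivity) this

/-- The sum of `chi n * log n / n` is bounded. -/
lemma chi_log_sum_bound (x : ℕ) :
    |∑ n ∈ Icc 1 x, chi n * (Real.log n * (1 / (n : ℝ)))| ≤ 1 := by
  rw [sum_chi_eq]
  set j := (x + 1) / 2
  rcases Nat.eq_zero_or_pos j with hj | hj
  · rw [hj]; simp
  obtain ⟨j', hj'⟩ : ∃ j', j = j' + 1 := ⟨j - 1, by omega⟩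
  rw [hj', Finset.sum_range_succ']
  have hzero : (-1 : ℝ) ^ 0 * (Real.log ((2 * 0 + 1 : ℕ) : ℝ) * (1 / ((2 * 0 + 1 : ℕ) : ℝ))) = 0 := by
    simp
  rw [hzero, add_zero]
  set g : ℕ → ℝ := fun i => Real.log ((2 * i + 3 : ℕ) : ℝ) * (1 / ((2 * i + 3 : ℕ) : ℝ)) with hg
  have hganti : Antitone g := by
    intro a b hab
    have hat : ∀ i : ℕ, Real.exp 1 ≤ ((2 * i + 3 : ℕ) : ℝ) := by
      intro i
      have h1 : (3 : ℝ) ≤ ((2 * i + 3 : ℕ) : ℝ) := by push_cast; linarith [(Nat.cast_nonneg i : (0 : ℝ) ≤ i)]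
      linarith [Real.exp_one_lt_d9]
    have h2 : ((2 * a + 3 : ℕ) : ℝ) ≤ ((2 * b + 3 : ℕ) : ℝ) := by
      exact_mod_cast (by omega : 2 * a + 3 ≤ 2 * b + 3)
    have := Real.log_div_self_antitoneOn (hat a) (hat b) h2
    simpa [hg, div_eq_mul_inv] using this
  have hgnn : ∀ i, 0 ≤ g i := by
    intro i
    refine mul_nonneg (Real.log_natCast_nonneg _) (by positivity)
  have hb := alt_sum_bounds j' g hganti hgnn
  have he : ∑ k ∈ range j', (-1 : ℝ) ^ (k + 1) * (Real.log ((2 * (k + 1) + 1 : ℕ) : ℝ) *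
      (1 / ((2 * (k + 1) + 1 : ℕ) : ℝ))) = - ∑ i ∈ range j', (-1 : ℝ) ^ i * g i := by
    rw [← Finset.sum_neg_distrib]
    refine Finset.sum_congr rfl fun i _ => ?_
    have : 2 * (i + 1) + 1 = 2 * i + 3 := by ring
    rw [this, pow_succ, hg]
    ring
  rw [he, abs_neg, abs_of_nonneg hb.1]
  refine hb.2.trans ?_
  have : g 0 = Real.log 3 * (1 / 3) := by simp [hg]
  rw [this]
  have h3 : Real.log 3 ≤ 3 - 1 := Real.log_le_sub_one_of_pos (by norm_num)
  linarith

/-- Sum of `chi d * Λ d / d`. -/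
noncomputable def chiLambda (x : ℕ) : ℝ := ∑ d ∈ Icc 1 x, chi d * (Λ d * (1 / (d : ℝ)))

lemma chi_log_identity (x : ℕ) :
    ∑ n ∈ Icc 1 x, chi n * (Real.log n * (1 / (n : ℝ)))
      = ∑ d ∈ Icc 1 x, chi d * (Λ d * (1 / (d : ℝ))) * chiSum (x / d) := by
  have h := sum_Icc_sum_divisors x (fun d e => chi d * (Λ d * (1 / (d : ℝ))) * (chi e * (1 / (e : ℝ))))
  have hL : ∑ m ∈ Icc 1 x, ∑ d ∈ m.divisors,
      chi d * (Λ d * (1 / (d : ℝ))) * (chi (m / d) * (1 / ((m / d : ℕ) : ℝ)))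
      = ∑ n ∈ Icc 1 x, chi n * (Real.log n * (1 / (n : ℝ))) := by
    refine Finset.sum_congr rfl fun m hm => ?_
    have hm1 := (mem_Icc.mp hm).1
    rw [← @vonMangoldt_sum m, Finset.sum_mul, Finset.mul_sum]
    refine Finset.sum_congr rfl fun d hd => ?_
    obtain ⟨e, rfl⟩ := (Nat.mem_divisors.mp hd).1
    have hd0 : 0 < d := Nat.pos_of_ne_zero (by rintro rfl; simp at hm1)
    have he0 : 0 < e := Nat.pos_of_ne_zero (by rintro rfl; simp at hm1)
    have hdiv : d * e / d = e := Nat.mul_div_cancel_left e hd0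
    rw [hdiv, chi_mul]
    push_cast
    have h1 : (d : ℝ) ≠ 0 := by positivity
    have h2 : (e : ℝ) ≠ 0 := by positivity
    field_simp
  rw [← hL, h]
  refine Finset.sum_congr rfl fun d _ => ?_
  unfold chiSum
  rw [Finset.mul_sum]

/-- The sum of `chi d * Λ d / d` is bounded. -/
lemma chiLambda_bound (x : ℕ) (hx : 1 ≤ x) :
    |chiLambda x| ≤ 4 / Real.pi * (5 + Real.log 4) := by
  have hx0 : (0 : ℝ) < x := by exact_mod_cast hx
  have hid := chi_log_identity x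
  have hB := chi_log_sum_bound x
  have hsplit : ∑ d ∈ Icc 1 x, chi d * (Λ d * (1 / (d : ℝ))) * chiSum (x / d)
      = Real.pi / 4 * chiLambda x
        + ∑ d ∈ Icc 1 x, chi d * (Λ d * (1 / (d : ℝ))) * (chiSum (x / d) - Real.pi / 4) := by
    unfold chiLambda
    rw [Finset.mul_sum, ← Finset.sum_add_distrib]
    refine Finset.sum_congr rfl fun d _ => ?_
    ring
  have herr : |∑ d ∈ Icc 1 x, chi d * (Λ d * (1 / (d : ℝ))) * (chiSum (x / d) - Real.pi / 4)|
      ≤ Real.log 4 + 4 := by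
    calc _ ≤ ∑ d ∈ Icc 1 x, |chi d * (Λ d * (1 / (d : ℝ))) * (chiSum (x / d) - Real.pi / 4)| :=
          Finset.abs_sum_le_sum_abs _ _
      _ ≤ ∑ d ∈ Icc 1 x, Λ d * (1 / (x : ℝ)) := by
          refine Finset.sum_le_sum fun d hd => ?_
          have hd1 := (mem_Icc.mp hd).1
          have hdpos : (0 : ℝ) < d := by exact_mod_cast hd1
          have hL := @vonMangoldt_nonneg d
          rw [abs_mul, abs_mul, abs_of_nonneg (mul_nonneg hL (by positivity))]
          have h1 := chi_abs_le d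
          have h2 := chiSum_close (x / d)
          have h3 : (x : ℝ) / d ≤ ((x / d : ℕ) : ℝ) + 1 := by
            have := Nat.lt_floor_add_one ((x : ℝ) / d)
            rw [Nat.floor_div_eq_div] at this
            exact this.le
          have h4 : 1 / (((x / d : ℕ) : ℝ) + 1) ≤ d / (x : ℝ) := by
            rw [div_le_div_iff₀ (by positivity) hx0]
            rw [div_le_iff₀ hdpos] at h3
            nlinarith
          calc |chi d| * (Λ d * (1 / (d : ℝ))) * |chiSum (x / d) - Real.pi / 4|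
              ≤ 1 * (Λ d * (1 / (d : ℝ))) * (d / (x : ℝ)) := by
                refine mul_le_mul (mul_le_mul_of_nonneg_right h1 (mul_nonneg hL (by positivity)))
                  (h2.trans h4) (abs_nonneg _) ?_
                exact mul_nonneg zero_le_one (mul_nonneg hL (by positivity))
            _ = Λ d * (1 / (x : ℝ)) := by field_simp
      _ = (∑ d ∈ Icc 1 x, Λ d) * (1 / (x : ℝ)) := by rw [Finset.sum_mul]
      _ ≤ ((Real.log 4 + 4) * x) * (1 / (x : ℝ)) := by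
          gcongr
          rw [sum_Icc_vonMangoldt_eq_psi]
          exact Chebyshev.psi_le_const_mul_self (by positivity)
      _ = _ := by field_simp
  have hmain : |Real.pi / 4 * chiLambda x| ≤ 5 + Real.log 4 := by
    have e : Real.pi / 4 * chiLambda x
        = ∑ n ∈ Icc 1 x, chi n * (Real.log n * (1 / (n : ℝ)))
          - ∑ d ∈ Icc 1 x, chi d * (Λ d * (1 / (d : ℝ))) * (chiSum (x / d) - Real.pi / 4) := by
      rw [hid, hsplit]; ring
    rw [e]
    refine (abs_sub _ _).trans ?_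
    linarith
  rw [abs_mul, abs_of_pos (by positivity : (0 : ℝ) < Real.pi / 4)] at hmain
  have hpi := Real.pi_pos
  calc |chiLambda x| = 4 / Real.pi * (Real.pi / 4 * |chiLambda x|) := by field_simp
    _ ≤ _ := by gcongr


/-- Prime powers with exponent at least two contribute a bounded amount. -/
lemma nonprime_sum_bound : ∃ K : ℝ, 0 ≤ K ∧ ∀ x : ℕ,
    ∑ d ∈ Icc 1 x with ¬ d.Prime, Λ d * (1 / (d : ℝ)) ≤ K := by
  have hsum : Summable (fun n : ℕ => ((n : ℝ) ^ (3 / 2 : ℝ))⁻¹) :=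
    Real.summable_nat_rpow_inv.mpr (by norm_num)
  refine ⟨4 * ∑' n : ℕ, ((n : ℝ) ^ (3 / 2 : ℝ))⁻¹, ?_, ?_⟩
  · have : 0 ≤ ∑' n : ℕ, ((n : ℝ) ^ (3 / 2 : ℝ))⁻¹ := tsum_nonneg (fun n => by positivity)
    positivity
  intro x
  set G : ℕ × ℕ → ℝ := fun y => Real.log y.1 * (1 / (y.1 : ℝ)) ^ y.2 with hG
  set φ : ℕ → ℕ × ℕ := fun d => (d.minFac, Nat.log d.minFac d) with hφ
  set S := (Icc 1 x).filter (fun d => ¬ d.Prime ∧ IsPrimePow d) with hS
  have hsplit : ∑ d ∈ Icc 1 x with ¬ d.Prime, Λ d * (1 / (d : ℝ))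
      = ∑ d ∈ S, Λ d * (1 / (d : ℝ)) := by
    rw [hS, ← Finset.filter_filter]
    symm
    apply Finset.sum_subset (Finset.filter_subset _ _)
    intro d hd hd2
    have hnp : ¬ IsPrimePow d := by
      intro h
      exact hd2 (Finset.mem_filter.mpr ⟨hd, h⟩)
    rw [vonMangoldt_apply, if_neg hnp]; simp
  have hdata : ∀ d ∈ S, ∃ p j : ℕ, p.Prime ∧ 2 ≤ j ∧ p ^ j = d ∧ p ≤ x ∧ j ≤ x := by
    intro d hd
    rw [hS, Finset.mem_filter, mem_Icc] at hd
    obtain ⟨⟨hd1, hdx⟩, hnp, hpp⟩ := hd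
    obtain ⟨p, j, hp, hj, rfl⟩ := (isPrimePow_nat_iff _).mp hpp
    refine ⟨p, j, hp, ?_, rfl, ?_, ?_⟩
    · by_contra hlt
      have : j = 1 := by omega
      subst this
      simp only [pow_one] at hnp
      exact hnp hp
    · exact (Nat.le_self_pow (by omega) p).trans hdx
    · exact (Nat.lt_pow_self hp.one_lt).le.trans hdx
  have hφval : ∀ p j : ℕ, p.Prime → 2 ≤ j → φ (p ^ j) = (p, j) := by
    intro p j hp hj
    simp only [hφ]
    rw [hp.pow_minFac (by omega), Nat.log_pow hp.one_lt]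
  have hinj : Set.InjOn φ S := by
    intro a ha b hb hab
    obtain ⟨p, j, hp, hj, rfl, -, -⟩ := hdata a ha
    obtain ⟨q, l, hq, hl, rfl, -, -⟩ := hdata b hb
    rw [hφval p j hp hj, hφval q l hq hl] at hab
    simp only [Prod.mk.injEq] at hab
    rw [hab.1, hab.2]
  have hterm : ∀ d ∈ S, Λ d * (1 / (d : ℝ)) = G (φ d) := by
    intro d hd
    obtain ⟨p, j, hp, hj, rfl, -, -⟩ := hdata d hd
    rw [hφval p j hp hj, vonMangoldt_apply_pow (by omega), vonMangoldt_apply_prime hp]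
    simp only [hG]
    push_cast
    rw [one_div_pow]
  have hGnn : ∀ y : ℕ × ℕ, 0 ≤ G y := fun y => by
    simp only [hG]
    exact mul_nonneg (Real.log_natCast_nonneg _) (by positivity)
  have hstep1 : ∑ d ∈ S, Λ d * (1 / (d : ℝ))
      ≤ ∑ y ∈ (Icc 2 x) ×ˢ (Ico 2 (x + 1)), G y := by
    rw [Finset.sum_congr rfl hterm, ← Finset.sum_image (f := G) hinj]
    refine Finset.sum_le_sum_of_subset_of_nonneg ?_ (fun y _ _ => hGnn y)
    intro y hy
    obtain ⟨d, hd, rfl⟩ := Finset.mem_image.mp hy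
    obtain ⟨p, j, hp, hj, rfl, hpx, hjx⟩ := hdata d hd
    rw [hφval p j hp hj]
    simp only [mem_product, mem_Icc, mem_Ico]
    exact ⟨⟨hp.two_le, hpx⟩, hj, by omega⟩
  have hstep2 : ∑ y ∈ (Icc 2 x) ×ˢ (Ico 2 (x + 1)), G y
      ≤ ∑ p ∈ Icc 2 x, 4 * ((p : ℝ) ^ (3 / 2 : ℝ))⁻¹ := by
    rw [Finset.sum_product]
    refine Finset.sum_le_sum fun p hp => ?_
    have hp2 : 2 ≤ p := (mem_Icc.mp hp).1
    have hp2' : (2 : ℝ) ≤ p := by exact_mod_cast hp2
    have hp0 : (0 : ℝ) < p := by linarith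
    simp only [hG]
    rw [← Finset.mul_sum]
    have hgeom : ∑ j ∈ Ico 2 (x + 1), (1 / (p : ℝ)) ^ j ≤ (1 / (p : ℝ)) ^ 2 / (1 - 1 / p) :=
      geom_sum_Ico_le_of_lt_one (by positivity) (by
        rw [div_lt_one hp0]; linarith)
    have hinv : (1 / (p : ℝ)) ≤ 1 / 2 := one_div_le_one_div_of_le (by norm_num) hp2'
    have hgeom2 : (1 / (p : ℝ)) ^ 2 / (1 - 1 / p) ≤ 2 / (p : ℝ) ^ 2 := by
      rw [div_le_div_iff₀ (by linarith) (by positivity)]
      have : (1 / (p : ℝ)) ^ 2 * (p : ℝ) ^ 2 = 1 := by field_simp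
      nlinarith
    have hlog : Real.log p ≤ 2 * (p : ℝ) ^ (1 / 2 : ℝ) := by
      have := Real.log_le_rpow_div (x := (p : ℝ)) hp0.le (by norm_num : (0 : ℝ) < 1 / 2)
      calc Real.log p ≤ (p : ℝ) ^ (1 / 2 : ℝ) / (1 / 2) := this
        _ = _ := by ring
    have hlognn : 0 ≤ Real.log p := Real.log_natCast_nonneg _
    calc Real.log p * ∑ j ∈ Ico 2 (x + 1), (1 / (p : ℝ)) ^ j
        ≤ (2 * (p : ℝ) ^ (1 / 2 : ℝ)) * (2 / (p : ℝ) ^ 2) := by
          refine mul_le_mul hlog (hgeom.trans hgeom2) ?_ (by positivity)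
          exact Finset.sum_nonneg fun j _ => by positivity
      _ = 4 * ((p : ℝ) ^ (3 / 2 : ℝ))⁻¹ := by
          have e : (p : ℝ) ^ (2 : ℕ) = (p : ℝ) ^ (1 / 2 : ℝ) * (p : ℝ) ^ (3 / 2 : ℝ) := by
            rw [← Real.rpow_add hp0, ← Real.rpow_natCast]
            norm_num
          rw [e]
          have h1 : (p : ℝ) ^ (1 / 2 : ℝ) ≠ 0 := (Real.rpow_pos_of_pos hp0 _).ne'
          have h2 : (p : ℝ) ^ (3 / 2 : ℝ) ≠ 0 := (Real.rpow_pos_of_pos hp0 _).ne'
          field_simp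
          norm_num
  have hstep3 : ∑ p ∈ Icc 2 x, 4 * ((p : ℝ) ^ (3 / 2 : ℝ))⁻¹
      ≤ 4 * ∑' n : ℕ, ((n : ℝ) ^ (3 / 2 : ℝ))⁻¹ := by
    rw [← Finset.mul_sum]
    have := hsum.sum_le_tsum (Icc 2 x) (fun n _ => by positivity)
    linarith
  rw [hsplit]
  linarith

/-- The sum of `log p / p` over primes `p ≡ 1 mod 4`, `p ≤ x`. -/
noncomputable def sumP (x : ℕ) : ℝ :=
  ∑ p ∈ Icc 1 x with (p.Prime ∧ p % 4 = 1), Real.log p * (1 / (p : ℝ))

lemma sumP_lower : ∃ C : ℝ, 0 ≤ C ∧ ∀ x : ℕ, 1 ≤ x → (1 / 2) * Real.log x - C ≤ sumP x := by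
  obtain ⟨K, hK0, hK⟩ := nonprime_sum_bound
  refine ⟨(2 + 4 / Real.pi * (5 + Real.log 4) + 2 * K) / 2, ?_, ?_⟩
  · have : (0 : ℝ) ≤ Real.log 4 := Real.log_natCast_nonneg 4
    have hpi := Real.pi_pos
    positivity
  intro x hx
  have h1 := mertens_lower x hx
  have h2 := abs_le.mp (chiLambda_bound x hx)
  have hT : Real.log x - 1 - 4 / Real.pi * (5 + Real.log 4)
      ≤ ∑ d ∈ Icc 1 x, (1 + chi d) * (Λ d * (1 / (d : ℝ))) := by
    have e : ∑ d ∈ Icc 1 x, (1 + chi d) * (Λ d * (1 / (d : ℝ)))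
        = ∑ d ∈ Icc 1 x, Λ d / d + chiLambda x := by
      unfold chiLambda
      rw [← Finset.sum_add_distrib]
      refine Finset.sum_congr rfl fun d _ => ?_
      ring
    rw [e]
    linarith [h2.1]
  have hterm : ∀ d ∈ Icc 1 x, (1 + chi d) * (Λ d * (1 / (d : ℝ)))
      ≤ (if d.Prime ∧ d % 4 = 1 then 2 * (Real.log d * (1 / (d : ℝ))) else 0)
        + (if d = 2 then 1 else 0)
        + (if ¬ d.Prime then 2 * (Λ d * (1 / (d : ℝ))) else 0) := by
    intro d hd
    have hd1 := (mem_Icc.mp hd).1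
    have hL := @vonMangoldt_nonneg d
    have hdpos : (0 : ℝ) < d := by exact_mod_cast hd1
    have hnn : 0 ≤ Λ d * (1 / (d : ℝ)) := mul_nonneg hL (by positivity)
    have hchi := abs_le.mp (chi_abs_le d)
    by_cases hp : d.Prime
    · rw [if_neg (not_not.mpr hp), add_zero, vonMangoldt_apply_prime hp]
      have hlg : 0 ≤ Real.log d * (1 / (d : ℝ)) :=
        mul_nonneg (Real.log_natCast_nonneg _) (by positivity)
      by_cases h4 : d % 4 = 1
      · rw [if_pos ⟨hp, h4⟩, chi_of_mod_one h4]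
        have : (0 : ℝ) ≤ if d = 2 then 1 else 0 := by split_ifs <;> norm_num
        nlinarith
      · rw [if_neg (by tauto)]
        by_cases h2 : d = 2
        · subst h2
          rw [if_pos rfl, chi_of_even (by norm_num)]
          have : Real.log 2 ≤ 2 - 1 := Real.log_le_sub_one_of_pos (by norm_num)
          push_cast
          nlinarith
        · rw [if_neg h2]
          have hodd : d % 4 = 3 := by
            have := hp.eq_two_or_odd
            omega
          rw [chi_of_mod_three hodd]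
          simp
    · rw [if_neg (by tauto), if_pos hp, zero_add]
      have : (0 : ℝ) ≤ if d = 2 then 1 else 0 := by split_ifs <;> norm_num
      nlinarith
  have hsum := Finset.sum_le_sum hterm
  rw [Finset.sum_add_distrib, Finset.sum_add_distrib] at hsum
  have hA : ∑ d ∈ Icc 1 x, (if d.Prime ∧ d % 4 = 1 then 2 * (Real.log d * (1 / (d : ℝ))) else 0)
      = 2 * sumP x := by
    unfold sumP
    rw [Finset.sum_filter, Finset.mul_sum]
    refine Finset.sum_congr rfl fun d _ => ?_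
    split_ifs <;> simp
  have hB : ∑ d ∈ Icc 1 x, (if d = 2 then (1 : ℝ) else 0) ≤ 1 := by
    rw [Finset.sum_ite_eq']
    split_ifs <;> norm_num
  have hC : ∑ d ∈ Icc 1 x, (if ¬ d.Prime then 2 * (Λ d * (1 / (d : ℝ))) else 0) ≤ 2 * K := by
    have := hK x
    rw [Finset.sum_filter] at this
    calc _ = 2 * ∑ d ∈ Icc 1 x, (if ¬ d.Prime then Λ d * (1 / (d : ℝ)) else 0) := by
          rw [Finset.mul_sum]
          refine Finset.sum_congr rfl fun d _ => ?_
          split_ifs <;> simp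
      _ ≤ _ := by linarith
  rw [hA] at hsum
  linarith

lemma sumP_upper (x : ℕ) (hx : 1 ≤ x) : sumP x ≤ Real.log x + (Real.log 4 + 4) := by
  refine le_trans ?_ (mertens_upper x hx)
  unfold sumP
  calc _ = ∑ p ∈ Icc 1 x with (p.Prime ∧ p % 4 = 1), Λ p / p := by
        refine Finset.sum_congr rfl fun p hp => ?_
        have := (Finset.mem_filter.mp hp).2.1
        rw [vonMangoldt_apply_prime this]
        ring
    _ ≤ _ := by
        refine Finset.sum_le_sum_of_subset_of_nonneg (Finset.filter_subset _ _) ?_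
        intro d _ _
        exact div_nonneg vonMangoldt_nonneg (by positivity)

/-- The reciprocal sum of primes `≡ 1 mod 4` in the range `(Y, Z]`. -/
noncomputable def sumR (Y Z : ℕ) : ℝ :=
  ∑ p ∈ Ioc Y Z with (p.Prime ∧ p % 4 = 1), 1 / (p : ℝ)

lemma sumR_step : ∃ Y₀ : ℕ, 2 ≤ Y₀ ∧ ∀ Y : ℕ, Y₀ ≤ Y → 1 / 4 ≤ sumR Y (Y ^ 8) := by
  obtain ⟨C, hC0, hC⟩ := sumP_lower
  set C' : ℝ := C + (Real.log 4 + 4) with hC'
  refine ⟨⌈Real.exp C'⌉₊ + 2, by omega, ?_⟩
  intro Y hY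
  have hY2 : 2 ≤ Y := by omega
  have hY1 : 1 ≤ Y := by omega
  have hYr : (0 : ℝ) < Y := by positivity
  have hlogC : C' ≤ Real.log Y := by
    have h1 : Real.exp C' ≤ Y := by
      have := Nat.le_ceil (Real.exp C')
      have h2 : ((⌈Real.exp C'⌉₊ : ℕ) : ℝ) ≤ (Y : ℝ) := by
        exact_mod_cast (by omega : ⌈Real.exp C'⌉₊ ≤ Y)
      linarith
    exact (Real.le_log_iff_exp_le hYr).mpr h1
  have hlogpos : 0 < Real.log Y := Real.log_pos (by exact_mod_cast (by omega : 1 < Y))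
  have hsplit : sumP (Y ^ 8) = sumP Y
      + ∑ p ∈ Ioc Y (Y ^ 8) with (p.Prime ∧ p % 4 = 1), Real.log p * (1 / (p : ℝ)) := by
    unfold sumP
    rw [← Finset.sum_union]
    · refine Finset.sum_congr ?_ fun _ _ => rfl
      ext p
      simp only [mem_filter, mem_Icc, mem_union, mem_Ioc]
      have hYle : Y ≤ Y ^ 8 := Nat.le_self_pow (by norm_num) Y
      constructor
      · rintro ⟨⟨h1, h2⟩, h3⟩
        by_cases hpY : p ≤ Y
        · exact Or.inl ⟨⟨h1, hpY⟩, h3⟩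
        · exact Or.inr ⟨⟨by omega, h2⟩, h3⟩
      · rintro (⟨⟨h1, h2⟩, h3⟩ | ⟨⟨h1, h2⟩, h3⟩)
        · exact ⟨⟨h1, by omega⟩, h3⟩
        · exact ⟨⟨by omega, h2⟩, h3⟩
    · rw [Finset.disjoint_left]
      intro p hp hp2
      simp only [mem_filter, mem_Icc, mem_Ioc] at hp hp2
      omega
  have hY8 : 1 ≤ Y ^ 8 := Nat.one_le_pow _ _ (by omega)
  have hL := hC (Y ^ 8) hY8
  have hU := sumP_upper Y hY1
  have hlog8 : Real.log ((Y ^ 8 : ℕ) : ℝ) = 8 * Real.log Y := by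
    push_cast
    rw [Real.log_pow]
    norm_num
  rw [hlog8] at hL
  have hbig : 2 * Real.log Y
      ≤ ∑ p ∈ Ioc Y (Y ^ 8) with (p.Prime ∧ p % 4 = 1), Real.log p * (1 / (p : ℝ)) := by
    linarith
  have hle : ∑ p ∈ Ioc Y (Y ^ 8) with (p.Prime ∧ p % 4 = 1), Real.log p * (1 / (p : ℝ))
      ≤ (8 * Real.log Y) * sumR Y (Y ^ 8) := by
    unfold sumR
    rw [Finset.mul_sum]
    refine Finset.sum_le_sum fun p hp => ?_
    have hp' := (Finset.mem_filter.mp hp).1
    have hp1 := (mem_Ioc.mp hp').1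
    have hp2 := (mem_Ioc.mp hp').2
    have hp0 : (0 : ℝ) < p := by exact_mod_cast (by omega : 0 < p)
    refine mul_le_mul_of_nonneg_right ?_ (by positivity)
    rw [← hlog8]
    exact Real.log_le_log hp0 (by exact_mod_cast hp2)
  have hfin : (2 * Real.log Y) ≤ (8 * Real.log Y) * sumR Y (Y ^ 8) := hbig.trans hle
  have : (8 * Real.log Y) * (1 / 4) ≤ (8 * Real.log Y) * sumR Y (Y ^ 8) := by
    calc (8 * Real.log Y) * (1 / 4) = 2 * Real.log Y := by ring
      _ ≤ _ := hfin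
  exact le_of_mul_le_mul_left this (by positivity)

lemma sumR_add {X Y Z : ℕ} (h1 : X ≤ Y) (h2 : Y ≤ Z) : sumR X Z = sumR X Y + sumR Y Z := by
  unfold sumR
  rw [← Finset.sum_union]
  · refine Finset.sum_congr ?_ fun _ _ => rfl
    ext p
    simp only [mem_filter, mem_union, mem_Ioc]
    constructor
    · rintro ⟨⟨a, b⟩, c⟩
      by_cases hpY : p ≤ Y
      · exact Or.inl ⟨⟨a, hpY⟩, c⟩
      · exact Or.inr ⟨⟨by omega, b⟩, c⟩
    · rintro (⟨⟨a, b⟩, c⟩ | ⟨⟨a, b⟩, c⟩)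
      · exact ⟨⟨a, by omega⟩, c⟩
      · exact ⟨⟨by omega, b⟩, c⟩
  · rw [Finset.disjoint_left]
    intro p hp hp2
    simp only [mem_filter, mem_Ioc] at hp hp2
    omega

/-- Primes `≡ 1 mod 4` have divergent reciprocal sum, effectively: the reciprocal sum
over `(Y, Y ^ (8 ^ j)]` is at least `j / 4` for all large `Y`. -/
lemma sumR_iter : ∃ Y₀ : ℕ, 2 ≤ Y₀ ∧ ∀ (j Y : ℕ), Y₀ ≤ Y → (j : ℝ) / 4 ≤ sumR Y (Y ^ (8 ^ j)) := by
  obtain ⟨Y₀, h2, hY₀⟩ := sumR_step
  refine ⟨Y₀, h2, ?_⟩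
  intro j
  induction j with
  | zero =>
    intro Y _
    simp [sumR]
  | succ j ih =>
    intro Y hY
    have hYpos : 0 < Y := by omega
    have hle : Y ≤ Y ^ (8 ^ j) := Nat.le_self_pow (by positivity) Y
    have hle2 : Y ^ (8 ^ j) ≤ (Y ^ (8 ^ j)) ^ 8 := Nat.le_self_pow (by norm_num) _
    have e : Y ^ (8 ^ (j + 1)) = (Y ^ (8 ^ j)) ^ 8 := by
      rw [pow_succ 8 j, pow_mul]
    rw [e, sumR_add hle hle2]
    have h1 := ih Y hY
    have h2 := hY₀ (Y ^ (8 ^ j)) (hY.trans hle)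
    push_cast
    linarith

end Vale.Agent.Lib.P015
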