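import Vale.Agent.Lib.P015.Strip6
import Vale.Agent.Lib.P015.Brun
import Vale.Agent.Lib.P015.Mertens

open Finset

namespace Vale.Agent.Lib.P015

/-- A subset whose weight lies in a prescribed window. -/
lemma exists_subset_sum (Q₀ : Finset ℕ) (w : ℕ → ℝ) (hw : ∀ p ∈ Q₀, 0 ≤ w p ∧ w p ≤ 1) (σ₀ : ℝ)
    (h0 : 0 ≤ σ₀) (hσ : σ₀ ≤ ∑ p ∈ Q₀, w p) :
    ∃ Q ⊆ Q₀, σ₀ ≤ ∑ p ∈ Q, w p ∧ ∑ p ∈ Q, w p ≤ σ₀ + 1 := by
  induction Q₀ using Finset.induction_on with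
  | empty =>
    refine ⟨∅, subset_rfl, hσ, ?_⟩
    simp only [Finset.sum_empty]
    linarith
  | insert q S hq ih =>
    by_cases h : ∑ p ∈ insert q S, w p ≤ σ₀ + 1
    · exact ⟨_, subset_rfl, hσ, h⟩
    · push Not at h
      rw [Finset.sum_insert hq] at h
      have hq1 := (hw q (mem_insert_self q S)).2
      obtain ⟨Q, hQ, h1, h2⟩ := ih (fun p hp => hw p (mem_insert_of_mem hp)) (by linarith)
      exact ⟨Q, hQ.trans (subset_insert q S), h1, h2⟩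

/-- The sieve instance used below. -/
lemma lineSieve_instance (k r Z : ℕ) (hZ : 1 ≤ Z) (Q : Finset ℕ)
    (hQ : ∀ p ∈ Q, p.Prime) (hkQ : ∀ p ∈ Q, k ≤ p) (hr : Even r)
    (hσ1 : Real.log Z ≤ ∑ p ∈ Q, 1 / (p : ℝ)) (hσ2 : ∑ p ∈ Q, 1 / (p : ℝ) ≤ Real.log Z + 1)
    (hrbig : (k : ℝ) * (4 * Real.log Z + 3) ≤ r + 1) (L y₁ : ℕ) (hQcard : Q.card ≤ y₁)
    (hL : (1 + k * y₁) ^ r * Z ^ k ≤ L) :
    LineSieve k Q L (3 / (Z : ℝ) ^ k) := by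
  have hZr : (1 : ℝ) ≤ (Z : ℝ) := by exact_mod_cast hZ
  have hZ0 : (0 : ℝ) < (Z : ℝ) := by linarith
  have hZk : (0 : ℝ) < (Z : ℝ) ^ k := by positivity
  have hLpos : 0 < L := by
    refine lt_of_lt_of_le ?_ hL
    have : 0 < (1 + k * y₁) ^ r := by positivity
    have h2 : 0 < Z ^ k := by positivity
    positivity
  have hLr : (0 : ℝ) < (L : ℝ) := by exact_mod_cast hLpos
  have hk0 : (0 : ℝ) ≤ (k : ℝ) := by positivity
  refine lineSieve_brun k r Q hQ hr L hLpos _ ?_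
  set S : ℝ := ∑ p ∈ Q, (k : ℝ) / p with hS
  have hSe : S = k * ∑ p ∈ Q, 1 / (p : ℝ) := by
    rw [hS, Finset.mul_sum]
    refine Finset.sum_congr rfl fun p _ => ?_
    ring
  have hx : ∀ p ∈ Q, 0 ≤ (k : ℝ) / p ∧ (k : ℝ) / p ≤ 1 := by
    intro p hp
    have hp0 : (0 : ℝ) < (p : ℝ) := by exact_mod_cast (hQ p hp).pos
    refine ⟨by positivity, ?_⟩
    rw [div_le_one hp0]
    exact_mod_cast hkQ p hp
  have ht := truncS_le Q (fun p => (k : ℝ) / p) hx r hr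
  have hexp : Real.exp ((k : ℝ) * Real.log Z) = (Z : ℝ) ^ k := by
    rw [Real.exp_nat_mul, Real.exp_log hZ0]
  have hinv : Real.exp (-((k : ℝ) * Real.log Z)) = 1 / (Z : ℝ) ^ k := by
    rw [Real.exp_neg, hexp, one_div]
  have h1 : Real.exp (-S) ≤ 1 / (Z : ℝ) ^ k := by
    rw [← hinv]
    apply Real.exp_le_exp.mpr
    rw [hSe]
    have := mul_le_mul_of_nonneg_left hσ1 hk0
    linarith
  have h2 : Real.exp (3 * S - (r + 1 : ℕ)) ≤ 1 / (Z : ℝ) ^ k := by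
    rw [← hinv]
    apply Real.exp_le_exp.mpr
    rw [hSe]
    have := mul_le_mul_of_nonneg_left hσ2 hk0
    push_cast
    nlinarith
  have h3 : ((1 : ℝ) + k * Q.card) ^ r / L ≤ 1 / (Z : ℝ) ^ k := by
    rw [div_le_div_iff₀ hLr hZk, one_mul]
    have hc : (Q.card : ℝ) ≤ (y₁ : ℝ) := by exact_mod_cast hQcard
    have h4 : ((1 : ℝ) + k * Q.card) ^ r ≤ ((1 : ℝ) + k * y₁) ^ r := by
      apply pow_le_pow_left₀ (by positivity)
      have := mul_le_mul_of_nonneg_left hc hk0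
      linarith
    have h5 : (((1 + k * y₁) ^ r * Z ^ k : ℕ) : ℝ) ≤ (L : ℝ) := by exact_mod_cast hL
    push_cast at h5
    have h6 := mul_le_mul_of_nonneg_right h4 hZk.le
    linarith
  have h4 : 3 / (Z : ℝ) ^ k = 1 / (Z : ℝ) ^ k + 1 / (Z : ℝ) ^ k + 1 / (Z : ℝ) ^ k := by ring
  rw [h4]
  beta_reduce at ht
  linarith

/-- Uniform arithmetic: `c ≤ N ^ c`. -/
lemma self_le_pow (N c : ℕ) (hN : 2 ≤ N) : c ≤ N ^ c := (Nat.lt_pow_self hN).le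

lemma pow_add_pow_le (N u v : ℕ) (hN : 2 ≤ N) : N ^ u + N ^ v ≤ N ^ (u + v + 1) := by
  have hN1 : 1 ≤ N := by omega
  have h1 : N ^ u ≤ N ^ (u + v) := Nat.pow_le_pow_right hN1 (by omega)
  have h2 : N ^ v ≤ N ^ (u + v) := Nat.pow_le_pow_right hN1 (by omega)
  have h3 : N ^ (u + v + 1) = N ^ (u + v) * N := pow_succ _ _
  rw [h3]
  have h4 : N ^ (u + v) * 2 ≤ N ^ (u + v) * N := Nat.mul_le_mul_left _ hN
  omega

/-- The size of the level of the sieve. -/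
lemma level_bound (N k D₀ Y₀ A₀ R₀ Z c : ℕ) (hN2 : 2 ≤ N) (hkN : k ≤ N)
    (hc : c = (Y₀ + 2 * D₀ + 5) * A₀) (y₁ r m : ℕ)
    (hy₁ : y₁ = (Y₀ + 2 * (k * D₀) ^ 2 + 1) ^ A₀) (hr : r = 2 * (k * R₀))
    (hm : m = 4 * D₀ * (1 + k * (2 * y₁ + 1) ^ 2) + 1) :
    ((1 + k * y₁) ^ r * Z ^ k) * m ≤ N ^ (((c + 2) * (2 * R₀) + Z + (2 * c + 9 + D₀)) * N) := by
  have hN1 : 1 ≤ N := by omega
  have hY_le : Y₀ + 2 * (k * D₀) ^ 2 + 1 ≤ N ^ (Y₀ + 2 * D₀ + 5) := by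
    have h1 : Y₀ + 1 ≤ N ^ (Y₀ + 1) := self_le_pow N _ hN2
    have h2 : D₀ ≤ N ^ D₀ := self_le_pow N _ hN2
    have h3 : k * D₀ ≤ N * N ^ D₀ := Nat.mul_le_mul hkN h2
    have h4 : (k * D₀) ^ 2 ≤ (N * N ^ D₀) ^ 2 := Nat.pow_le_pow_left h3 2
    have h5 : 2 * (k * D₀) ^ 2 ≤ N * (N * N ^ D₀) ^ 2 := Nat.mul_le_mul hN2 h4
    have e : N * (N * N ^ D₀) ^ 2 = N ^ (2 * D₀ + 3) := by ring
    rw [e] at h5
    have h6 := pow_add_pow_le N (Y₀ + 1) (2 * D₀ + 3) hN2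
    have e2 : Y₀ + 1 + (2 * D₀ + 3) + 1 = Y₀ + 2 * D₀ + 5 := by ring
    rw [e2] at h6
    omega
  have hy₁_le : y₁ ≤ N ^ c := by
    rw [hy₁, hc, pow_mul]
    exact Nat.pow_le_pow_left hY_le _
  have hkc : k * y₁ ≤ N ^ (c + 1) := by
    have := Nat.mul_le_mul hkN hy₁_le
    have e : N * N ^ c = N ^ (c + 1) := by ring
    rwa [e] at this
  have h1 : 1 + k * y₁ ≤ N ^ (c + 2) := by
    have h3 := pow_add_pow_le N 0 (c + 1) hN2
    have e : 0 + (c + 1) + 1 = c + 2 := by ring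
    rw [e] at h3
    simp only [pow_zero] at h3
    omega
  have h2 : (1 + k * y₁) ^ r ≤ N ^ ((c + 2) * (2 * R₀) * N) := by
    calc (1 + k * y₁) ^ r ≤ (N ^ (c + 2)) ^ r := Nat.pow_le_pow_left h1 r
      _ = N ^ ((c + 2) * r) := by rw [pow_mul]
      _ ≤ N ^ ((c + 2) * (2 * R₀) * N) := by
          apply Nat.pow_le_pow_right hN1
          have hrle : r ≤ 2 * R₀ * N := by
            rw [hr]
            have h5 : k * R₀ ≤ N * R₀ := Nat.mul_le_mul_right _ hkN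
            have e : 2 * R₀ * N = 2 * (N * R₀) := by ring
            rw [e]
            omega
          calc (c + 2) * r ≤ (c + 2) * (2 * R₀ * N) := Nat.mul_le_mul_left _ hrle
            _ = _ := by ring
  have h3 : Z ^ k ≤ N ^ (Z * N) := by
    calc Z ^ k ≤ (N ^ Z) ^ k := Nat.pow_le_pow_left (self_le_pow N Z hN2) k
      _ = N ^ (Z * k) := by rw [pow_mul]
      _ ≤ N ^ (Z * N) := Nat.pow_le_pow_right hN1 (Nat.mul_le_mul_left _ hkN)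
  have h4 : m ≤ N ^ ((2 * c + 9 + D₀) * N) := by
    have a1 : 2 * y₁ + 1 ≤ N ^ (c + 2) := by
      have h5 : 2 * y₁ ≤ N ^ (c + 1) := by
        have := Nat.mul_le_mul hN2 hy₁_le
        have e : N * N ^ c = N ^ (c + 1) := by ring
        rwa [e] at this
      have h6 := pow_add_pow_le N 0 (c + 1) hN2
      have e : 0 + (c + 1) + 1 = c + 2 := by ring
      rw [e] at h6
      simp only [pow_zero] at h6
      omega
    have a2 : (2 * y₁ + 1) ^ 2 ≤ N ^ (2 * c + 4) := by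
      calc (2 * y₁ + 1) ^ 2 ≤ (N ^ (c + 2)) ^ 2 := Nat.pow_le_pow_left a1 2
        _ = N ^ (2 * c + 4) := by rw [← pow_mul]; congr 1; ring
    have a3 : k * (2 * y₁ + 1) ^ 2 ≤ N ^ (2 * c + 5) := by
      have := Nat.mul_le_mul hkN a2
      have e : N * N ^ (2 * c + 4) = N ^ (2 * c + 5) := by ring
      rwa [e] at this
    have a4 : 1 + k * (2 * y₁ + 1) ^ 2 ≤ N ^ (2 * c + 6) := by
      have h6 := pow_add_pow_le N 0 (2 * c + 5) hN2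
      have e : 0 + (2 * c + 5) + 1 = 2 * c + 6 := by ring
      rw [e] at h6
      simp only [pow_zero] at h6
      omega
    have a5 : 4 * D₀ ≤ N ^ (2 + D₀) := by
      have h6 : D₀ ≤ N ^ D₀ := self_le_pow N _ hN2
      have h7 : 4 ≤ N ^ 2 := by nlinarith
      have := Nat.mul_le_mul h7 h6
      have e : N ^ 2 * N ^ D₀ = N ^ (2 + D₀) := by ring
      rwa [e] at this
    have a6 : 4 * D₀ * (1 + k * (2 * y₁ + 1) ^ 2) ≤ N ^ (2 * c + 8 + D₀) := by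
      have := Nat.mul_le_mul a5 a4
      have e : N ^ (2 + D₀) * N ^ (2 * c + 6) = N ^ (2 * c + 8 + D₀) := by ring
      rwa [e] at this
    have a7 : m ≤ N ^ (2 * c + 9 + D₀) := by
      have h6 := pow_add_pow_le N 0 (2 * c + 8 + D₀) hN2
      have e : 0 + (2 * c + 8 + D₀) + 1 = 2 * c + 9 + D₀ := by ring
      rw [e] at h6
      simp only [pow_zero] at h6
      omega
    refine a7.trans (Nat.pow_le_pow_right hN1 ?_)
    exact Nat.le_mul_of_pos_right _ (by omega)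
  calc ((1 + k * y₁) ^ r * Z ^ k) * m
      ≤ N ^ ((c + 2) * (2 * R₀) * N) * N ^ (Z * N) * N ^ ((2 * c + 9 + D₀) * N) :=
        Nat.mul_le_mul (Nat.mul_le_mul h2 h3) h4
    _ = N ^ (((c + 2) * (2 * R₀) + Z + (2 * c + 9 + D₀)) * N) := by
        rw [← pow_add, ← pow_add]
        congr 1
        ring

/-- Sieve data of dimension `k`, with the level polynomial at exponent `k`. -/
lemma provider_brun (D₀ : ℕ) (hD : 1 ≤ D₀) : ∃ a : ℕ, ∀ k : ℕ, 1 ≤ k →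
    ∃ (Q : Finset ℕ) (y₁ T₀ : ℕ) (ε : ℝ),
      (∀ p ∈ Q, p.Prime) ∧ (∀ p ∈ Q, p % 4 = 1) ∧ (∀ p ∈ Q, 2 * (k * D₀) ^ 2 < p) ∧
      (∀ p ∈ Q, p ≤ y₁) ∧ 0 < T₀ ∧ 0 ≤ ε ∧ LineSieve k Q T₀ ε ∧
      ε * (20 * (D₀ : ℝ) * (((2 * D₀ + 1) ^ 2) ^ k : ℕ) * (2 * (((2 ^ k : ℕ) : ℕ) : ℝ) + 1)) ≤ 1 ∧
      4 * D₀ * (1 + k * (2 * y₁ + 1) ^ 2) < T₀ ∧ T₀ ≤ (k + 2) ^ (a * (k + 2)) := by
  classical
  obtain ⟨Y₀, hY₀2, hY₀⟩ := sumR_iter
  set B : ℕ := (2 * D₀ + 1) ^ 2 with hB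
  have hBpos : 1 ≤ B := Nat.one_le_pow _ _ (by omega)
  set Z : ℕ := 360 * D₀ * B with hZdef
  have hZ1 : 1 ≤ Z := by
    rw [hZdef]
    have : 1 ≤ D₀ * B := Nat.mul_pos hD hBpos
    nlinarith
  have hZr : (1 : ℝ) ≤ (Z : ℝ) := by exact_mod_cast hZ1
  have hlog0 : 0 ≤ Real.log Z := Real.log_nonneg hZr
  have hlogZ : Real.log Z ≤ Z := by
    have := Real.log_le_sub_one_of_pos (by linarith : (0 : ℝ) < (Z : ℝ))
    linarith
  set A₀ : ℕ := 8 ^ (4 * Z) with hA₀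
  set R₀ : ℕ := 4 * Z + 3 with hR₀
  set b : ℕ := Y₀ + 2 * D₀ + 5 with hb
  set c : ℕ := b * A₀ with hc
  refine ⟨(c + 2) * (2 * R₀) + Z + (2 * c + 9 + D₀), ?_⟩
  intro k hk
  set N : ℕ := k + 2 with hN
  have hN2 : 2 ≤ N := by omega
  have hN1 : 1 ≤ N := by omega
  have hkN : k ≤ N := by omega
  set Y : ℕ := Y₀ + 2 * (k * D₀) ^ 2 + 1 with hY
  have hYY₀ : Y₀ ≤ Y := by omega
  set y₁ : ℕ := Y ^ A₀ with hy₁
  set Q₀ : Finset ℕ := (Ioc Y y₁).filter (fun p => p.Prime ∧ p % 4 = 1) with hQ₀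
  have hsum : Real.log Z ≤ ∑ p ∈ Q₀, 1 / (p : ℝ) := by
    have h1 := hY₀ (4 * Z) Y hYY₀
    have h2 : sumR Y (Y ^ (8 ^ (4 * Z))) = ∑ p ∈ Q₀, 1 / (p : ℝ) := rfl
    rw [h2] at h1
    have h3 : ((4 * Z : ℕ) : ℝ) / 4 = (Z : ℝ) := by push_cast; ring
    rw [h3] at h1
    linarith
  have hQ₀mem : ∀ p ∈ Q₀, (Y < p ∧ p ≤ y₁) ∧ p.Prime ∧ p % 4 = 1 := by
    intro p hp
    obtain ⟨h1, h2⟩ := Finset.mem_filter.mp hp
    exact ⟨Finset.mem_Ioc.mp h1, h2⟩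
  obtain ⟨Q, hQsub, hσ1, hσ2⟩ := exists_subset_sum Q₀ (fun p => 1 / (p : ℝ))
    (by
      intro p hp
      have hp1 : (1 : ℝ) ≤ (p : ℝ) := by exact_mod_cast ((hQ₀mem p hp).2.1).one_le
      refine ⟨by positivity, ?_⟩
      rw [div_le_one (by linarith)]
      exact hp1)
    (Real.log Z) hlog0 hsum
  have hQmem : ∀ p ∈ Q, (Y < p ∧ p ≤ y₁) ∧ p.Prime ∧ p % 4 = 1 := fun p hp => hQ₀mem p (hQsub hp)
  have hQp : ∀ p ∈ Q, p.Prime := fun p hp => (hQmem p hp).2.1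
  have hQ4 : ∀ p ∈ Q, p % 4 = 1 := fun p hp => (hQmem p hp).2.2
  have hQbig : ∀ p ∈ Q, 2 * (k * D₀) ^ 2 < p := by
    intro p hp
    have := (hQmem p hp).1.1
    omega
  have hkQ : ∀ p ∈ Q, k ≤ p := by
    intro p hp
    have h1 := hQbig p hp
    have h2 : k * 1 ≤ k * D₀ := Nat.mul_le_mul_left k hD
    have h3 : k * D₀ ≤ (k * D₀) ^ 2 := Nat.le_self_pow (by omega) _
    omega
  have hQcard : Q.card ≤ y₁ := by
    have h1 : Q ⊆ Ioc Y y₁ := fun p hp => Finset.mem_Ioc.mpr (hQmem p hp).1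
    have h2 := Finset.card_le_card h1
    rw [Nat.card_Ioc] at h2
    omega
  set r : ℕ := 2 * (k * R₀) with hr
  have hrEven : Even r := even_two_mul _
  have hrbig : (k : ℝ) * (4 * Real.log Z + 3) ≤ r + 1 := by
    have h1 : (r : ℝ) = 2 * ((k : ℝ) * (4 * Z + 3)) := by
      rw [hr, hR₀]; push_cast; ring
    have h2 : (k : ℝ) * (4 * Real.log Z + 3) ≤ (k : ℝ) * (4 * Z + 3) := by
      apply mul_le_mul_of_nonneg_left _ (by positivity)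
      linarith
    have h3 : (0 : ℝ) ≤ (k : ℝ) * (4 * Z + 3) := by positivity
    rw [h1]
    linarith
  set m : ℕ := 4 * D₀ * (1 + k * (2 * y₁ + 1) ^ 2) + 1 with hm
  set T₀ : ℕ := ((1 + k * y₁) ^ r * Z ^ k) * m with hT₀
  have hfac : 1 ≤ (1 + k * y₁) ^ r * Z ^ k := by
    have h1 : 1 ≤ (1 + k * y₁) ^ r := Nat.one_le_pow _ _ (by positivity)
    have h2 : 1 ≤ Z ^ k := Nat.one_le_pow _ _ (by omega)
    exact Nat.mul_pos h1 h2
  have hmpos : 1 ≤ m := by omega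
  have hT₀pos : 0 < T₀ := Nat.mul_pos hfac hmpos
  have hs : LineSieve k Q T₀ (3 / (Z : ℝ) ^ k) :=
    lineSieve_instance k r Z hZ1 Q hQp hkQ hrEven hσ1 hσ2 hrbig T₀ y₁ hQcard
      (Nat.le_mul_of_pos_right _ hmpos)
  have hZk : (0 : ℝ) < (Z : ℝ) ^ k := by positivity
  have hsmall : (3 / (Z : ℝ) ^ k) * (20 * (D₀ : ℝ) * ((B ^ k : ℕ) : ℝ) * (2 * (((2 ^ k : ℕ) : ℕ) : ℝ) + 1)) ≤ 1 := by
    have hnat : 60 * D₀ * B ^ k * (2 * 2 ^ k + 1) ≤ Z ^ k := by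
      have h1 : 180 * D₀ ≤ (180 * D₀) ^ k := Nat.le_self_pow (by omega) _
      have e : Z ^ k = (180 * D₀) ^ k * (2 * B) ^ k := by
        rw [← mul_pow, hZdef]
        congr 1
        ring
      have e2 : (2 * B) ^ k = 2 ^ k * B ^ k := mul_pow _ _ _
      have h3 : 2 * 2 ^ k + 1 ≤ 3 * 2 ^ k := by
        have : 1 ≤ 2 ^ k := Nat.one_le_two_pow
        omega
      calc 60 * D₀ * B ^ k * (2 * 2 ^ k + 1) ≤ 60 * D₀ * B ^ k * (3 * 2 ^ k) :=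
            Nat.mul_le_mul_left _ h3
        _ = 180 * D₀ * (2 * B) ^ k := by rw [e2]; ring
        _ ≤ (180 * D₀) ^ k * (2 * B) ^ k := Nat.mul_le_mul_right _ h1
        _ = Z ^ k := e.symm
    have hnatr : ((60 * D₀ * B ^ k * (2 * 2 ^ k + 1) : ℕ) : ℝ) ≤ ((Z ^ k : ℕ) : ℝ) := by
      exact_mod_cast hnat
    push_cast at hnatr ⊢
    rw [div_mul_eq_mul_div, div_le_one hZk]
    calc _ = 60 * (D₀ : ℝ) * (B : ℝ) ^ k * (2 * 2 ^ k + 1) := by ring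
      _ ≤ _ := hnatr
  refine ⟨Q, y₁, T₀, 3 / (Z : ℝ) ^ k, hQp, hQ4, hQbig, fun p hp => (hQmem p hp).1.2, hT₀pos,
    by positivity, hs, hsmall, ?_, ?_⟩
  · have : m ≤ T₀ := Nat.le_mul_of_pos_left _ hfac
    omega
  · exact level_bound N k D₀ Y₀ A₀ R₀ Z c hN2 hkN hc _ _ _ hy₁ hr hm
    
end Vale.Agent.Lib.P015
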