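import Vale.Agent.Lib.P015.Assemble

open Finset

namespace Vale.Agent.Lib.P015

lemma norm_sub_cast (u v : GaussianInt) :
    (((u - v).norm : ℤ) : ℝ) = ((u.re : ℝ) - v.re) ^ 2 + ((u.im : ℝ) - v.im) ^ 2 := by
  simp only [Zsqrtd.norm, Zsqrtd.re_sub, Zsqrtd.im_sub]
  push_cast
  ring

/-- Walks of Gaussian primes in a strip. -/
lemma gauss_strip (D₀ k : ℕ) (hD : 1 ≤ D₀) (Q : Finset ℕ)
    (hQp : ∀ p ∈ Q, p.Prime) (hQ4 : ∀ p ∈ Q, p % 4 = 1)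
    (hQbig : ∀ p ∈ Q, 2 * (k * D₀) ^ 2 < p)
    (y₁ : ℕ) (hQy : ∀ p ∈ Q, p ≤ y₁) (T₀ : ℕ) (hT₀ : 0 < T₀) (ε : ℝ) (hε : 0 ≤ ε)
    (hs : LineSieve k Q T₀ ε) (W₀ : ℕ)
    (hεsmall : ε * (20 * (D₀ : ℝ) * (((2 * D₀ + 1) ^ 2) ^ k : ℕ) * (2 * (W₀ : ℝ) + 1)) ≤ 1)
    (hT₀big : 4 * D₀ * (1 + k * (2 * y₁ + 1) ^ 2) < T₀)
    (a b c' : ℝ) (hab : a ^ 2 + b ^ 2 = 1) (n : ℕ) (z : ℕ → GaussianInt)
    (hprime : ∀ i ≤ n, Prime (z i))
    (hstep : ∀ i < n, |(z (i + 1)).re - (z i).re| ≤ D₀ ∧ |(z (i + 1)).im - (z i).im| ≤ D₀)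
    (hstrip : ∀ i ≤ n, |a * ((z i).re : ℝ) + b * ((z i).im : ℝ) - c'| ≤ W₀) :
    (((z n).re : ℝ) - (z 0).re) ^ 2 + (((z n).im : ℝ) - (z 0).im) ^ 2
      ≤ (2 * (2 * (W₀ : ℝ) + (2 * (2 * (T₀ : ℝ) + 1) ^ 2 * T₀
          + (k + 2) * (2 * (2 * (T₀ : ℝ) + 1) * D₀)))) ^ 2 := by
  obtain ⟨m, w, h0, hm, hR, hmem, hinj⟩ := loop_erase
    (fun u v : GaussianInt => |v.re - u.re| ≤ D₀ ∧ |v.im - u.im| ≤ D₀) z n hstep
  have := strip_core D₀ k hD Q hQp hQ4 hQbig y₁ T₀ hT₀ ε hε hs W₀ hεsmall hT₀big a b c' hab m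
    (fun i => (w i).re) (fun i => (w i).im)
    (fun i hi => (hR i hi).1) (fun i hi => (hR i hi).2)
    (fun i hi j hj h1 h2 => hinj i hi j hj (Zsqrtd.ext h1 h2))
    (by
      intro i hi hnorm p hp r hr
      obtain ⟨j, hj, hje⟩ := hmem i hi
      have hpr := hprime j hj
      rw [← hje] at hpr
      refine phi_ne_zero_of_prime (hQp p hp) (hQ4 p hp) hr hpr ?_
      intro he
      have e : (w i).norm = (w i).re ^ 2 + (w i).im ^ 2 := by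
        simp only [Zsqrtd.norm]
        ring
      have hle : ((p : ℕ) : ℤ) ≤ (y₁ : ℤ) := by exact_mod_cast hQy p hp
      rw [e] at he
      have hn2 : (y₁ : ℤ) < (w i).re ^ 2 + (w i).im ^ 2 := hnorm
      linarith)
    (by
      intro i hi
      obtain ⟨j, hj, hje⟩ := hmem i hi
      have := hstrip j hj
      rw [← hje] at this
      exact this)
  simp only [hm, h0] at this
  exact this

/-- Arithmetic for the final bound. -/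
lemma final_nat (N k D₀ T₀ a : ℕ) (hN2 : 2 ≤ N) (hk : k + 2 = N) (hT₁ : 1 ≤ T₀)
    (hT : T₀ ≤ N ^ (a * N)) (hD : 1 ≤ D₀) :
    2 * (2 * 2 ^ k + (2 * (2 * T₀ + 1) ^ 2 * T₀ + (k + 2) * (2 * (2 * T₀ + 1) * D₀)))
      ≤ N ^ ((8 + D₀ + 3 * a) * N) := by
  have hN1 : 1 ≤ N := by omega
  have h3T : 2 * T₀ + 1 ≤ 3 * T₀ := by omega
  have hTT : T₀ ≤ T₀ ^ 3 := Nat.le_self_pow (by omega) _
  have hT3 : 1 ≤ T₀ ^ 3 := by omega
  have hNN : 1 ≤ N ^ N := Nat.one_le_pow _ _ (by omega)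
  have h2k : 2 ^ k ≤ N ^ N := by
    calc 2 ^ k ≤ N ^ k := Nat.pow_le_pow_left hN2 k
      _ ≤ N ^ N := Nat.pow_le_pow_right hN1 (by omega)
  have h1 : 2 * (2 * T₀ + 1) ^ 2 * T₀ ≤ 18 * T₀ ^ 3 := by
    have := Nat.pow_le_pow_left h3T 2
    calc 2 * (2 * T₀ + 1) ^ 2 * T₀ ≤ 2 * (3 * T₀) ^ 2 * T₀ := by gcongr
      _ = 18 * T₀ ^ 3 := by ring
  have h2 : (k + 2) * (2 * (2 * T₀ + 1) * D₀) ≤ 6 * N * D₀ * T₀ ^ 3 := by
    rw [hk]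
    calc N * (2 * (2 * T₀ + 1) * D₀) ≤ N * (2 * (3 * T₀) * D₀) := by gcongr
      _ = 6 * N * D₀ * T₀ := by ring
      _ ≤ 6 * N * D₀ * T₀ ^ 3 := Nat.mul_le_mul_left _ hTT
  have hND : 1 ≤ N * D₀ := Nat.mul_pos hN1 hD
  have h4 : 2 * (2 * 2 ^ k + (2 * (2 * T₀ + 1) ^ 2 * T₀ + (k + 2) * (2 * (2 * T₀ + 1) * D₀)))
      ≤ (52 * (N * D₀)) * (N ^ N * T₀ ^ 3) := by
    have h5 : 2 ^ k ≤ N ^ N * T₀ ^ 3 := h2k.trans (Nat.le_mul_of_pos_right _ (by omega))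
    have h6 : T₀ ^ 3 ≤ N ^ N * T₀ ^ 3 := Nat.le_mul_of_pos_left _ (by omega)
    set X := N ^ N * T₀ ^ 3 with hX
    have h7 : 6 * N * D₀ * T₀ ^ 3 ≤ 6 * (N * D₀) * X := by
      calc 6 * N * D₀ * T₀ ^ 3 = 6 * (N * D₀) * T₀ ^ 3 := by ring
        _ ≤ 6 * (N * D₀) * X := Nat.mul_le_mul_left _ h6
    have h8 : X ≤ (N * D₀) * X := Nat.le_mul_of_pos_left _ hND
    have e : 52 * (N * D₀) * X = 52 * ((N * D₀) * X) := by ring
    have e2 : 6 * (N * D₀) * X = 6 * ((N * D₀) * X) := by ring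
    rw [e]
    rw [e2] at h7
    omega
  have h5 : 52 * (N * D₀) ≤ N ^ (7 + D₀) := by
    have a1 : 52 ≤ N ^ 6 := by
      have : 2 ^ 6 ≤ N ^ 6 := Nat.pow_le_pow_left hN2 6
      omega
    have a2 : D₀ ≤ N ^ D₀ := self_le_pow N _ hN2
    calc 52 * (N * D₀) ≤ N ^ 6 * (N * N ^ D₀) := by gcongr
      _ = N ^ (7 + D₀) := by ring
  have h6 : T₀ ^ 3 ≤ N ^ (3 * a * N) := by
    calc T₀ ^ 3 ≤ (N ^ (a * N)) ^ 3 := Nat.pow_le_pow_left hT 3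
      _ = N ^ (3 * a * N) := by rw [← pow_mul]; congr 1; ring
  calc _ ≤ (52 * (N * D₀)) * (N ^ N * T₀ ^ 3) := h4
    _ ≤ N ^ (7 + D₀) * (N ^ N * N ^ (3 * a * N)) := by gcongr
    _ = N ^ (7 + D₀ + (N + 3 * a * N)) := by
        rw [← pow_add, ← pow_add]
    _ ≤ N ^ ((8 + D₀ + 3 * a) * N) := by
        apply Nat.pow_le_pow_right hN1
        have : (7 + D₀) * 1 ≤ (7 + D₀) * N := Nat.mul_le_mul_left _ hN1
        nlinarith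

/-- The width theorem: a walk of Gaussian primes with steps at most `D` inside a strip of width
at most `2 ^ k` (in any direction, at any location) has endpoints at distance at most
`(k + 2) ^ (A * (k + 2))`, with `A` depending only on `D`. -/
theorem width_theorem (D : ℝ) : ∃ A : ℕ, ∀ (k : ℕ) (W a b c : ℝ) (n : ℕ) (z : ℕ → GaussianInt),
    a ^ 2 + b ^ 2 = 1 → W ≤ 2 ^ k →
    (∀ i ≤ n, Prime (z i)) →
    (∀ i < n, (((z (i + 1) - z i).norm : ℤ) : ℝ) ≤ D ^ 2) →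
    (∀ i ≤ n, |a * ((z i).re : ℝ) + b * ((z i).im : ℝ) - c| ≤ W) →
    (((z n - z 0).norm : ℤ) : ℝ) ≤ (((k + 2) ^ (A * (k + 2)) : ℕ) : ℝ) ^ 2 := by
  set D₀ : ℕ := ⌈|D|⌉₊ + 1 with hD₀
  have hD1 : 1 ≤ D₀ := by omega
  have hDabs : |D| ≤ (D₀ : ℝ) := by
    have h1 := Nat.le_ceil |D|
    rw [hD₀]
    push_cast
    linarith
  obtain ⟨a₀, hprov⟩ := provider_brun D₀ hD1
  refine ⟨4 * (8 + D₀ + 3 * a₀), ?_⟩
  intro k W a b c n z hab hW hprime hstep hstrip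
  obtain ⟨Q, y₁, T₀, ε, hQp, hQ4, hQbig, hQy, hT₀, hε, hs, hsmall, hbig, hTle⟩ :=
    hprov (k + 1) (by omega)
  have hW₀ : W ≤ (((2 ^ (k + 1) : ℕ)) : ℝ) := by
    refine hW.trans ?_
    push_cast
    apply pow_le_pow_right₀ (by norm_num)
    omega
  have hstep' : ∀ i < n, |(z (i + 1)).re - (z i).re| ≤ D₀ ∧ |(z (i + 1)).im - (z i).im| ≤ D₀ := by
    intro i hi
    have h1 := hstep i hi
    rw [norm_sub_cast] at h1
    have hDsq : D ^ 2 ≤ (D₀ : ℝ) ^ 2 := by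
      rw [← sq_abs D]
      exact pow_le_pow_left₀ (abs_nonneg _) hDabs 2
    constructor
    · have h2 : ((((z (i + 1)).re - (z i).re : ℤ) : ℝ)) ^ 2 ≤ (D₀ : ℝ) ^ 2 := by
        push_cast
        nlinarith [sq_nonneg ((((z (i + 1)).im : ℝ)) - (z i).im)]
      have h3 := abs_le_of_sq_le_sq h2 (by positivity)
      have h4 : ((|(z (i + 1)).re - (z i).re| : ℤ) : ℝ) ≤ ((D₀ : ℤ) : ℝ) := by
        push_cast at h3 ⊢
        exact h3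
      exact_mod_cast h4
    · have h2 : ((((z (i + 1)).im - (z i).im : ℤ) : ℝ)) ^ 2 ≤ (D₀ : ℝ) ^ 2 := by
        push_cast
        nlinarith [sq_nonneg ((((z (i + 1)).re : ℝ)) - (z i).re)]
      have h3 := abs_le_of_sq_le_sq h2 (by positivity)
      have h4 : ((|(z (i + 1)).im - (z i).im| : ℤ) : ℝ) ≤ ((D₀ : ℤ) : ℝ) := by
        push_cast at h3 ⊢
        exact h3
      exact_mod_cast h4
  have hcore := gauss_strip D₀ (k + 1) hD1 Q hQp hQ4 hQbig y₁ hQy T₀ hT₀ ε hε hs (2 ^ (k + 1)) hsmall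
    hbig a b c hab n z hprime hstep' (fun i hi => (hstrip i hi).trans hW₀)
  rw [norm_sub_cast]
  refine hcore.trans ?_
  have hnat := final_nat (k + 1 + 2) (k + 1) D₀ T₀ a₀ (by omega) rfl hT₀ hTle hD1
  have hnat2 : (k + 1 + 2) ^ ((8 + D₀ + 3 * a₀) * (k + 1 + 2))
      ≤ (k + 2) ^ (4 * (8 + D₀ + 3 * a₀) * (k + 2)) := by
    set A' := 8 + D₀ + 3 * a₀ with hA'
    have h1 : k + 1 + 2 ≤ (k + 2) ^ 2 := by nlinarith
    calc (k + 1 + 2) ^ (A' * (k + 1 + 2)) ≤ ((k + 2) ^ 2) ^ (A' * (k + 1 + 2)) :=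
          Nat.pow_le_pow_left h1 _
      _ = (k + 2) ^ (2 * (A' * (k + 1 + 2))) := (pow_mul _ _ _).symm
      _ ≤ (k + 2) ^ (4 * A' * (k + 2)) := by
          apply Nat.pow_le_pow_right (by omega)
          nlinarith
  have hfin := hnat.trans hnat2
  have hfinr : ((2 * (2 * 2 ^ (k + 1) + (2 * (2 * T₀ + 1) ^ 2 * T₀
      + (k + 1 + 2) * (2 * (2 * T₀ + 1) * D₀))) : ℕ) : ℝ)
      ≤ (((k + 2) ^ (4 * (8 + D₀ + 3 * a₀) * (k + 2)) : ℕ) : ℝ) := by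
    exact_mod_cast hfin
  apply pow_le_pow_left₀ (by positivity)
  refine le_trans (le_of_eq ?_) hfinr
  push_cast
  ring

end Vale.Agent.Lib.P015
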