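import Mathlib

open Finset

namespace Vale.Agent.Lib.P015

/-- The additive map `(x, y) ↦ x + r y` to `ZMod p`. -/
def phi {p : ℕ} (r : ZMod p) (x y : ℤ) : ZMod p := (x : ZMod p) + r * (y : ZMod p)

lemma phi_add {p : ℕ} (r : ZMod p) (x y x' y' : ℤ) :
    phi r (x + x') (y + y') = phi r x y + phi r x' y' := by
  simp only [phi]; push_cast; ring

lemma phi_dvd_norm {p : ℕ} {r : ZMod p} (hr : r * r = -1) {x y : ℤ} (h : phi r x y = 0) :
    (p : ℤ) ∣ x ^ 2 + y ^ 2 := by
  rw [← ZMod.intCast_zmod_eq_zero_iff_dvd]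
  push_cast
  have hx : (x : ZMod p) = - (r * (y : ZMod p)) := by
    simp only [phi] at h
    exact eq_neg_of_add_eq_zero_left h
  rw [hx]
  have : (-(r * (y : ZMod p))) ^ 2 + (y : ZMod p) ^ 2 = (r * r + 1) * (y : ZMod p) ^ 2 := by ring
  rw [this, hr]
  ring

lemma phi_ne_zero_of_small {p : ℕ} [Fact p.Prime] {r : ZMod p} (hr : r * r = -1) {x y : ℤ}
    (h0 : x ≠ 0 ∨ y ≠ 0) (hlt : x ^ 2 + y ^ 2 < p) : phi r x y ≠ 0 := by
  intro h
  have hd := phi_dvd_norm hr h
  have hpos : 0 < x ^ 2 + y ^ 2 := by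
    rcases h0 with h0 | h0
    · have := pow_pos (abs_pos.mpr h0) 2
      rw [sq_abs] at this
      nlinarith [sq_nonneg y]
    · have := pow_pos (abs_pos.mpr h0) 2
      rw [sq_abs] at this
      nlinarith [sq_nonneg x]
  exact absurd (Int.le_of_dvd hpos hd) (by omega)

/-- Existence of a square root of `-1` modulo `p` not killing a primitive vector. -/
lemma exists_root_ne {p : ℕ} [Fact p.Prime] (hp4 : p % 4 = 1) {u₁ u₂ : ℤ} (hu : IsCoprime u₁ u₂) :
    ∃ r : ZMod p, r * r = -1 ∧ phi r u₁ u₂ ≠ 0 := by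
  have hne3 : p % 4 ≠ 3 := by omega
  obtain ⟨r, hr⟩ := ZMod.exists_sq_eq_neg_one_iff.mpr hne3
  have hr' : r * r = -1 := hr.symm
  by_cases h : phi r u₁ u₂ = 0
  · refine ⟨-r, by rw [neg_mul_neg]; exact hr', ?_⟩
    intro h2
    simp only [phi] at h h2
    have hodd : p ≠ 2 := by
      rintro rfl
      omega
    have h2ne : (2 : ZMod p) ≠ 0 := by
      intro h20
      have : ((2 : ℕ) : ZMod p) = 0 := by exact_mod_cast h20
      rw [ZMod.natCast_eq_zero_iff] at this
      have hp := Nat.le_of_dvd (by norm_num) this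
      have hp2 := (Fact.out : p.Prime).two_le
      omega
    have h1 : (2 : ZMod p) * (u₁ : ZMod p) = 0 := by linear_combination h + h2
    have h3 : (2 : ZMod p) * (r * (u₂ : ZMod p)) = 0 := by linear_combination h - h2
    have hu1 : (u₁ : ZMod p) = 0 := (mul_eq_zero.mp h1).resolve_left h2ne
    have hru2 : r * (u₂ : ZMod p) = 0 := (mul_eq_zero.mp h3).resolve_left h2ne
    have hrne : r ≠ 0 := by
      rintro rfl
      have : (0 : ZMod p) = -1 := by simpa using hr'
      exact one_ne_zero (by simpa using this.symm : (1 : ZMod p) = 0)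
    have hu2 : (u₂ : ZMod p) = 0 := (mul_eq_zero.mp hru2).resolve_left hrne
    rw [ZMod.intCast_zmod_eq_zero_iff_dvd] at hu1 hu2
    obtain ⟨s, t, hst⟩ := hu
    have hdvd : (p : ℤ) ∣ 1 := by
      rw [← hst]
      exact dvd_add (Dvd.dvd.mul_left hu1 _) (Dvd.dvd.mul_left hu2 _)
    have := Int.le_of_dvd (by norm_num) hdvd
    have hp2 := (Fact.out : p.Prime).two_le
    omega
  · exact ⟨r, hr', h⟩

/-- An element of `ℤ[i]` of prime norm is irreducible. -/
lemma irreducible_of_norm_prime {p : ℕ} (hp : p.Prime) (ω : GaussianInt) (h : ω.norm = p) :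
    Irreducible ω := by
  constructor
  · intro hu
    have := Zsqrtd.norm_eq_one_iff.mpr hu
    rw [h] at this
    simp only [Int.natAbs_natCast] at this
    exact hp.one_lt.ne' this
  · intro a b hab
    have hn : a.norm * b.norm = p := by rw [← Zsqrtd.norm_mul, ← hab, h]
    have hn2 : a.norm.natAbs * b.norm.natAbs = p := by
      have := congrArg Int.natAbs hn
      rw [Int.natAbs_mul] at this
      simpa using this
    rcases hp.eq_one_or_self_of_dvd a.norm.natAbs (Dvd.intro _ hn2) with h1 | h1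
    · exact Or.inl (Zsqrtd.norm_eq_one_iff.mp h1)
    · right
      apply Zsqrtd.norm_eq_one_iff.mp
      rw [h1] at hn2
      exact Nat.eq_of_mul_eq_mul_left hp.pos (by rw [hn2, mul_one])

/-- A Gaussian prime whose norm is divisible by a prime `p ≡ 1 mod 4` has norm `p`. -/
lemma norm_eq_of_dvd {p : ℕ} (hp : p.Prime) (hp4 : p % 4 = 1) {z : GaussianInt} (hz : Prime z)
    (hd : (p : ℤ) ∣ z.norm) : z.norm = p := by
  haveI : Fact p.Prime := ⟨hp⟩
  obtain ⟨a, b, hab⟩ := Nat.Prime.sq_add_sq (p := p) (by omega)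
  set ω : GaussianInt := ⟨(a : ℤ), (b : ℤ)⟩ with hω
  have hnω : ω.norm = p := by
    simp only [Zsqrtd.norm_def, hω]
    push_cast [← hab]
    ring
  have hnω' : (star ω).norm = p := by
    rw [Zsqrtd.norm_conj]; exact hnω
  have hirr : Irreducible ω := irreducible_of_norm_prime hp ω hnω
  have hirr' : Irreducible (star ω) := irreducible_of_norm_prime hp _ hnω'
  have hprime : Prime ω := hirr.prime
  have hpω : ((p : ℤ) : GaussianInt) = ω * star ω := by
    rw [← Zsqrtd.norm_eq_mul_conj, hnω]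
  have hdvd : ω ∣ z * star z := by
    rw [← Zsqrtd.norm_eq_mul_conj]
    obtain ⟨c, hc⟩ := hd
    rw [hc]
    push_cast
    refine Dvd.dvd.mul_right ?_ _
    have : ((p : ℕ) : GaussianInt) = ω * star ω := by
      rw [← Zsqrtd.norm_eq_mul_conj, hnω]; rfl
    rw [this]
    exact Dvd.intro _ rfl
  have key : ∃ ν : GaussianInt, ν.norm = p ∧ ν ∣ z := by
    rcases hprime.dvd_or_dvd hdvd with h | h
    · exact ⟨ω, hnω, h⟩
    · refine ⟨star ω, hnω', ?_⟩
      obtain ⟨c, hc⟩ := h
      refine ⟨star c, ?_⟩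
      have := congrArg star hc
      simpa [star_mul, mul_comm] using this
  obtain ⟨ν, hν, w, hw⟩ := key
  have hzirr : Irreducible z := hz.irreducible
  rw [hw] at hzirr
  rcases hzirr.isUnit_or_isUnit rfl with hu | hu
  · have := Zsqrtd.norm_eq_one_iff.mpr hu
    rw [hν] at this
    simp only [Int.natAbs_natCast] at this
    exact absurd this hp.one_lt.ne'
  · have h1 := Zsqrtd.norm_eq_one_iff.mpr hu
    have h2 : w.norm = 1 := by
      have hnn : 0 ≤ w.norm := Zsqrtd.norm_nonneg (by norm_num) w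
      omega
    rw [hw, Zsqrtd.norm_mul, h2, mul_one, hν]

/-- A Gaussian prime of norm different from `p` is not in the kernel of `phi r`. -/
lemma phi_ne_zero_of_prime {p : ℕ} (hp : p.Prime) (hp4 : p % 4 = 1) {r : ZMod p}
    (hr : r * r = -1) {z : GaussianInt} (hz : Prime z) (hn : z.norm ≠ p) :
    phi r z.re z.im ≠ 0 := by
  intro h
  have hd := phi_dvd_norm hr h
  have e : z.re ^ 2 + z.im ^ 2 = z.norm := by
    simp only [Zsqrtd.norm_def]; ring
  rw [e] at hd
  exact hn (norm_eq_of_dvd hp hp4 hz hd)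

end Vale.Agent.Lib.P015
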