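import Mathlib

open Finset

namespace Vale.Agent.Lib.P015

/-- The residues of `T` consecutive integers are all residues mod `T`. -/
lemma card_Ico_filter_cast_mem {T : ℕ} (hT : 0 < T) (a : ℤ) (B : Finset (ZMod T)) :
    ((Ico a (a + T)).filter (fun t : ℤ => (t : ZMod T) ∈ B)).card = B.card := by
  haveI : NeZero T := ⟨hT.ne'⟩
  refine Finset.card_bij (fun t _ => (t : ZMod T)) ?_ ?_ ?_
  · intro t ht
    exact (Finset.mem_filter.mp ht).2
  · intro t ht t' ht' h
    have h1 := (mem_Ico.mp (Finset.mem_filter.mp ht).1)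
    have h2 := (mem_Ico.mp (Finset.mem_filter.mp ht').1)
    have hd : (T : ℤ) ∣ t - t' := by
      rw [← ZMod.intCast_zmod_eq_zero_iff_dvd]
      push_cast
      exact sub_eq_zero.mpr h
    have : t - t' = 0 := by
      apply Int.eq_zero_of_abs_lt_dvd hd
      rw [abs_lt]
      constructor <;> linarith [h1.1, h1.2, h2.1, h2.2]
    linarith
  · intro x hx
    refine ⟨a + ((x - (a : ZMod T)).val : ℤ), ?_, ?_⟩
    · refine Finset.mem_filter.mpr ⟨?_, ?_⟩
      · rw [mem_Ico]
        have := ZMod.val_lt (x - (a : ZMod T))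
        constructor
        · have : (0 : ℤ) ≤ ((x - (a : ZMod T)).val : ℤ) := by positivity
          linarith
        · have h2 : (((x - (a : ZMod T)).val : ℕ) : ℤ) < T := by exact_mod_cast this
          linarith
      · push_cast
        rw [ZMod.natCast_zmod_val]
        simpa using hx
    · push_cast
      rw [ZMod.natCast_zmod_val]
      ring

/-- Exact count in one full period, by the Chinese remainder theorem. -/
lemma card_period (Q : Finset ℕ) (hQ : ∀ p ∈ Q, p.Prime) (A : ∀ p : ℕ, Finset (ZMod p)) (a : ℤ) :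
    ((Ico a (a + ((∏ p ∈ Q, p : ℕ) : ℤ))).filter
      (fun t : ℤ => ∀ p ∈ Q, (t : ZMod p) ∈ A p)).card = ∏ p ∈ Q, (A p).card := by
  classical
  set ι := {p // p ∈ Q}
  have hco : Pairwise (Function.onFun Nat.Coprime (fun i : ι => i.val)) := by
    intro i j hij
    exact (Nat.coprime_primes (hQ i.val i.prop) (hQ j.val j.prop)).mpr
      (fun h => hij (Subtype.ext h))
  set e := ZMod.prodEquivPi (fun i : ι => i.val) hco
  have hT : ∏ i : ι, i.val = ∏ p ∈ Q, p := by
    rw [Finset.prod_coe_sort Q (fun p => p)]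
  set T := ∏ i : ι, i.val with hTdef
  have hTpos : 0 < T := Finset.prod_pos fun i _ => (hQ i.val i.prop).pos
  have : NeZero T := ⟨hTpos.ne'⟩
  set B : Finset (ZMod T) := Finset.univ.filter (fun x => ∀ i : ι, e x i ∈ A i.val) with hB
  have hcast : ∀ (t : ℤ) (i : ι), e (t : ZMod T) i = (t : ZMod i.val) := by
    intro t i
    have := map_intCast e t
    rw [this]
    simp
  have hfilter : (Ico a (a + ((∏ p ∈ Q, p : ℕ) : ℤ))).filter
      (fun t : ℤ => ∀ p ∈ Q, (t : ZMod p) ∈ A p)
      = (Ico a (a + T)).filter (fun t : ℤ => (t : ZMod T) ∈ B) := by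
    rw [← hT]
    refine Finset.filter_congr fun t _ => ?_
    simp only [hB, Finset.mem_filter, Finset.mem_univ, true_and, hcast]
    constructor
    · intro h i
      exact h i.val i.prop
    · intro h p hp
      exact h ⟨p, hp⟩
  rw [hfilter, card_Ico_filter_cast_mem hTpos]
  have hcard : B.card = (Fintype.piFinset (fun i : ι => A i.val)).card := by
    refine Finset.card_bij (fun x _ => e x) ?_ ?_ ?_
    · intro x hx
      rw [Fintype.mem_piFinset]
      exact (Finset.mem_filter.mp hx).2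
    · intro x _ y _ h
      exact e.injective h
    · intro f hf
      refine ⟨e.symm f, ?_, by simp⟩
      refine Finset.mem_filter.mpr ⟨Finset.mem_univ _, ?_⟩
      intro i
      rw [Fintype.mem_piFinset] at hf
      simpa using hf i
  rw [hcard, Fintype.card_piFinset]
  rw [Finset.prod_coe_sort Q (fun p => (A p).card)]

/-- Count in `m` full periods. -/
lemma card_periods (Q : Finset ℕ) (hQ : ∀ p ∈ Q, p.Prime) (A : ∀ p : ℕ, Finset (ZMod p))
    (m : ℕ) (a : ℤ) :
    ((Ico a (a + ((m * ∏ p ∈ Q, p : ℕ) : ℤ))).filter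
      (fun t : ℤ => ∀ p ∈ Q, (t : ZMod p) ∈ A p)).card = m * ∏ p ∈ Q, (A p).card := by
  classical
  induction m generalizing a with
  | zero => simp
  | succ m ih =>
    set T := ∏ p ∈ Q, p with hT
    have hTnn : (0 : ℤ) ≤ (T : ℤ) := by positivity
    have hsplit : Ico a (a + (((m + 1) * T : ℕ) : ℤ))
        = Ico a (a + ((m * T : ℕ) : ℤ)) ∪ Ico (a + ((m * T : ℕ) : ℤ)) (a + ((m * T : ℕ) : ℤ) + T) := by
      rw [Finset.Ico_union_Ico_eq_Ico]
      · congr 1
        push_cast
        ring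
      · have : (0 : ℤ) ≤ ((m * T : ℕ) : ℤ) := by positivity
        linarith
      · linarith
    rw [hsplit, Finset.filter_union, Finset.card_union_of_disjoint, ih]
    · rw [← hT] at *
      have := card_period Q hQ A (a + ((m * T : ℕ) : ℤ))
      rw [← hT] at this
      rw [this]
      ring
    · apply Finset.disjoint_filter_filter
      rw [Finset.disjoint_left]
      intro t h1 h2
      have h1' := mem_Ico.mp h1
      have h2' := mem_Ico.mp h2
      linarith [h1'.2, h2'.1]

/-- Count in an arbitrary interval: an upper and a lower bound by whole periods. -/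
lemma card_interval_bounds (Q : Finset ℕ) (hQ : ∀ p ∈ Q, p.Prime) (A : ∀ p : ℕ, Finset (ZMod p))
    (L : ℕ) (a : ℤ) :
    (L / ∏ p ∈ Q, p) * ∏ p ∈ Q, (A p).card ≤
      ((Ico a (a + (L : ℤ))).filter (fun t : ℤ => ∀ p ∈ Q, (t : ZMod p) ∈ A p)).card ∧
    ((Ico a (a + (L : ℤ))).filter (fun t : ℤ => ∀ p ∈ Q, (t : ZMod p) ∈ A p)).card ≤
      (L / ∏ p ∈ Q, p + 1) * ∏ p ∈ Q, (A p).card := by
  classical
  set T := ∏ p ∈ Q, p with hT
  have hTpos : 0 < T := Finset.prod_pos fun p hp => (hQ p hp).pos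
  set m := L / T with hm
  have h1 : m * T ≤ L := Nat.div_mul_le_self L T
  have h2 : L < (m + 1) * T := by
    have := Nat.lt_div_mul_add (a := L) hTpos
    rw [← hm] at this
    nlinarith
  constructor
  · have := card_periods Q hQ A m a
    rw [← hT] at this
    rw [← this]
    refine Finset.card_le_card (Finset.filter_subset_filter _ ?_)
    apply Finset.Ico_subset_Ico_right
    have : ((m * T : ℕ) : ℤ) ≤ (L : ℤ) := by exact_mod_cast h1
    linarith
  · have := card_periods Q hQ A (m + 1) a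
    rw [← hT] at this
    rw [← this]
    refine Finset.card_le_card (Finset.filter_subset_filter _ ?_)
    apply Finset.Ico_subset_Ico_right
    have : (L : ℤ) ≤ (((m + 1) * T : ℕ) : ℤ) := by exact_mod_cast h2.le
    linarith

/-- `LineSieve k Q L ε`: every interval of `L` consecutive integers contains at most `ε * L`
integers avoiding, for each `p ∈ Q`, a prescribed set of `k` residue classes mod `p`. -/
def LineSieve (k : ℕ) (Q : Finset ℕ) (L : ℕ) (ε : ℝ) : Prop :=
  ∀ (C : ∀ p : ℕ, Finset (ZMod p)), (∀ p ∈ Q, (C p).card = k) → ∀ a : ℤ,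
    (((Ico a (a + (L : ℤ))).filter (fun t : ℤ => ∀ p ∈ Q, (t : ZMod p) ∉ C p)).card : ℝ) ≤ ε * L

/-- The exact sieve on whole periods. -/
lemma lineSieve_exact (k : ℕ) (Q : Finset ℕ) (hQ : ∀ p ∈ Q, p.Prime) (hk : ∀ p ∈ Q, k ≤ p)
    (m : ℕ) :
    LineSieve k Q (m * ∏ p ∈ Q, p) (∏ p ∈ Q, (1 - (k : ℝ) / p)) := by
  classical
  intro C hC a
  set A : ∀ p : ℕ, Finset (ZMod p) := fun p =>
    if hp : p ∈ Q then (have : NeZero p := ⟨(hQ p hp).ne_zero⟩; (C p)ᶜ) else ∅ with hA
  have hAmem : ∀ p ∈ Q, ∀ x : ZMod p, x ∈ A p ↔ x ∉ C p := by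
    intro p hp x
    have : NeZero p := ⟨(hQ p hp).ne_zero⟩
    simp only [hA, dif_pos hp, Finset.mem_compl]
  have hAcard : ∀ p ∈ Q, (A p).card = p - k := by
    intro p hp
    have : NeZero p := ⟨(hQ p hp).ne_zero⟩
    simp only [hA, dif_pos hp]
    rw [Finset.card_compl, ZMod.card, hC p hp]
  have hfilter : (Ico a (a + ((m * ∏ p ∈ Q, p : ℕ) : ℤ))).filter
        (fun t : ℤ => ∀ p ∈ Q, (t : ZMod p) ∉ C p)
      = (Ico a (a + ((m * ∏ p ∈ Q, p : ℕ) : ℤ))).filter
        (fun t : ℤ => ∀ p ∈ Q, (t : ZMod p) ∈ A p) := by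
    refine Finset.filter_congr fun t _ => ?_
    constructor
    · intro h p hp
      exact (hAmem p hp _).mpr (h p hp)
    · intro h p hp
      exact (hAmem p hp _).mp (h p hp)
  rw [hfilter, card_periods Q hQ A m a]
  have hprod : ((∏ p ∈ Q, (A p).card : ℕ) : ℝ)
      = (∏ p ∈ Q, (1 - (k : ℝ) / p)) * ((∏ p ∈ Q, p : ℕ) : ℝ) := by
    push_cast
    rw [← Finset.prod_mul_distrib]
    refine Finset.prod_congr rfl fun p hp => ?_
    rw [hAcard p hp, Nat.cast_sub (hk p hp)]
    have hp0 : (p : ℝ) ≠ 0 := by exact_mod_cast (hQ p hp).ne_zero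
    field_simp
  push_cast at hprod ⊢
  rw [hprod]
  apply le_of_eq
  ring

end Vale.Agent.Lib.P015
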