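import Vale.Agent.Lib.P015.GaussLine
import Vale.Agent.Lib.P015.Sieve

open Finset

namespace Vale.Agent.Lib.P015

/-- Rational approximation of a direction by a primitive integer vector. -/
lemma exists_direction (a b : ℝ) (hab : a ^ 2 + b ^ 2 = 1) (T : ℕ) (hT : 0 < T) :
    ∃ u₁ u₂ : ℤ, IsCoprime u₁ u₂ ∧ |u₁| ≤ 2 * T + 1 ∧ |u₂| ≤ 2 * T + 1 ∧
      |a * u₁ + b * u₂| ≤ 1 / ((T : ℝ) + 1) := by
  have hprim : ∀ m n : ℤ, m ≠ 0 ∨ n ≠ 0 → |m| ≤ 2 * T + 1 → |n| ≤ 2 * T + 1 →
      |a * m + b * n| ≤ 1 / ((T : ℝ) + 1) →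
      ∃ u₁ u₂ : ℤ, IsCoprime u₁ u₂ ∧ |u₁| ≤ 2 * T + 1 ∧ |u₂| ≤ 2 * T + 1 ∧
        |a * u₁ + b * u₂| ≤ 1 / ((T : ℝ) + 1) := by
    intro m n hm hmb hnb hclose
    have hg : 0 < Int.gcd m n := by
      rcases hm with hm | hm
      · exact Int.gcd_pos_of_ne_zero_left _ hm
      · exact Int.gcd_pos_of_ne_zero_right _ hm
    obtain ⟨m', n', hco, hm', hn'⟩ := Int.exists_gcd_one hg
    set g := Int.gcd m n with hgdef
    have hg1 : (1 : ℤ) ≤ (g : ℤ) := by exact_mod_cast hg
    have hgr : (1 : ℝ) ≤ (g : ℝ) := by exact_mod_cast hg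
    refine ⟨m', n', Int.isCoprime_iff_gcd_eq_one.mpr hco, ?_, ?_, ?_⟩
    · refine le_trans ?_ hmb
      rw [hm', abs_mul, abs_of_pos (by omega : (0 : ℤ) < (g : ℤ))]
      nlinarith [abs_nonneg m']
    · refine le_trans ?_ hnb
      rw [hn', abs_mul, abs_of_pos (by omega : (0 : ℤ) < (g : ℤ))]
      nlinarith [abs_nonneg n']
    · refine le_trans ?_ hclose
      have e : a * (m : ℝ) + b * (n : ℝ) = (a * m' + b * n') * g := by
        rw [hm', hn']; push_cast; ring
      rw [e, abs_mul, abs_of_pos (by linarith : (0 : ℝ) < (g : ℝ))]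
      nlinarith [abs_nonneg (a * (m' : ℝ) + b * (n' : ℝ))]
  have ha1 : |a| ≤ 1 := by
    rw [abs_le]; constructor <;> nlinarith [sq_nonneg b, sq_nonneg a]
  have hb1 : |b| ≤ 1 := by
    rw [abs_le]; constructor <;> nlinarith [sq_nonneg b, sq_nonneg a]
  by_cases hcase : |a| ≤ |b|
  · have hb0 : b ≠ 0 := by
      rintro rfl
      simp only [abs_zero] at hcase
      have : a = 0 := abs_nonpos_iff.mp hcase
      rw [this] at hab
      norm_num at hab
    obtain ⟨j, k, hk0, hkT, hclose⟩ := Real.exists_int_int_abs_mul_sub_le (a / b) hT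
    have hξ : |a / b| ≤ 1 := by
      rw [abs_div, div_le_one (abs_pos.mpr hb0)]; exact hcase
    have hkr : (0 : ℝ) < (k : ℝ) := by exact_mod_cast hk0
    have hkTr : (k : ℝ) ≤ (T : ℝ) := by exact_mod_cast hkT
    have hT1 : (1 : ℝ) / ((T : ℝ) + 1) ≤ 1 := by
      rw [div_le_one (by positivity)]
      have : (0 : ℝ) ≤ T := by positivity
      linarith
    have hjb : |(j : ℝ)| ≤ (k : ℝ) + 1 := by
      have h1 : |(j : ℝ)| ≤ |(k : ℝ) * (a / b) - j| + |(k : ℝ) * (a / b)| := by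
        have := abs_sub_abs_le_abs_sub ((j : ℝ)) ((k : ℝ) * (a / b))
        rw [abs_sub_comm] at this
        linarith
      have h2 : |(k : ℝ) * (a / b)| ≤ k := by
        rw [abs_mul, abs_of_pos hkr]
        nlinarith
      linarith
    refine hprim k (-j) (Or.inl hk0.ne') ?_ ?_ ?_
    · rw [abs_of_pos hk0]; omega
    · rw [abs_neg]
      have : |j| ≤ k + 1 := by
        have h3 : ((|j| : ℤ) : ℝ) ≤ ((k + 1 : ℤ) : ℝ) := by push_cast; exact hjb
        exact_mod_cast h3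
      omega
    · have e : a * (k : ℝ) + b * ((-j : ℤ) : ℝ) = b * ((k : ℝ) * (a / b) - j) := by
        push_cast
        field_simp
        ring
      rw [e, abs_mul]
      calc |b| * |(k : ℝ) * (a / b) - j| ≤ 1 * (1 / ((T : ℝ) + 1)) :=
            mul_le_mul hb1 hclose (abs_nonneg _) (by norm_num)
        _ = _ := by ring
  · push Not at hcase
    have ha0 : a ≠ 0 := by
      rintro rfl
      simp only [abs_zero] at hcase
      exact absurd hcase (not_lt.mpr (abs_nonneg b))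
    obtain ⟨j, k, hk0, hkT, hclose⟩ := Real.exists_int_int_abs_mul_sub_le (b / a) hT
    have hξ : |b / a| ≤ 1 := by
      rw [abs_div, div_le_one (abs_pos.mpr ha0)]; exact hcase.le
    have hkr : (0 : ℝ) < (k : ℝ) := by exact_mod_cast hk0
    have hkTr : (k : ℝ) ≤ (T : ℝ) := by exact_mod_cast hkT
    have hT1 : (1 : ℝ) / ((T : ℝ) + 1) ≤ 1 := by
      rw [div_le_one (by positivity)]
      have : (0 : ℝ) ≤ T := by positivity
      linarith
    have hjb : |(j : ℝ)| ≤ (k : ℝ) + 1 := by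
      have h1 : |(j : ℝ)| ≤ |(k : ℝ) * (b / a) - j| + |(k : ℝ) * (b / a)| := by
        have := abs_sub_abs_le_abs_sub ((j : ℝ)) ((k : ℝ) * (b / a))
        rw [abs_sub_comm] at this
        linarith
      have h2 : |(k : ℝ) * (b / a)| ≤ k := by
        rw [abs_mul, abs_of_pos hkr]
        nlinarith
      linarith
    refine hprim (-j) k (Or.inr hk0.ne') ?_ ?_ ?_
    · rw [abs_neg]
      have : |j| ≤ k + 1 := by
        have h3 : ((|j| : ℤ) : ℝ) ≤ ((k + 1 : ℤ) : ℝ) := by push_cast; exact hjb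
        exact_mod_cast h3
      omega
    · rw [abs_of_pos hk0]; omega
    · have e : a * ((-j : ℤ) : ℝ) + b * (k : ℝ) = a * ((k : ℝ) * (b / a) - j) := by
        push_cast
        field_simp
        ring
      rw [e, abs_mul]
      calc |a| * |(k : ℝ) * (b / a) - j| ≤ 1 * (1 / ((T : ℝ) + 1)) :=
            mul_le_mul ha1 hclose (abs_nonneg _) (by norm_num)
        _ = _ := by ring

/-- The set of integers `t` with `t * U + b` in a window of length `U * T₀` is an interval of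
exactly `T₀` integers. -/
lemma exists_window_interval (U : ℤ) (hU : 0 < U) (T₀ : ℕ) (A b : ℤ) :
    ∃ α : ℤ, ∀ t : ℤ, (A ≤ t * U + b ∧ t * U + b < A + U * T₀) ↔ (α ≤ t ∧ t < α + T₀) := by
  set n := A - b + U - 1 with hn
  set q := n / U with hq
  have h1 : U * q + n % U = n := Int.mul_ediv_add_emod n U
  have h2 : 0 ≤ n % U := Int.emod_nonneg n hU.ne'
  have h3 : n % U < U := Int.emod_lt_of_pos n hU
  have hlow : A - b ≤ q * U := by nlinarith
  have hhigh : q * U ≤ A - b + U - 1 := by nlinarith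
  refine ⟨q, fun t => ⟨?_, ?_⟩⟩
  · rintro ⟨h4, h5⟩
    constructor
    · by_contra hlt
      push Not at hlt
      have : (t + 1) * U ≤ q * U := mul_le_mul_of_nonneg_right (by omega) hU.le
      nlinarith
    · by_contra hge
      push Not at hge
      have : (q + T₀) * U ≤ t * U := mul_le_mul_of_nonneg_right hge hU.le
      nlinarith
  · rintro ⟨h4, h5⟩
    constructor
    · have : q * U ≤ t * U := mul_le_mul_of_nonneg_right h4 hU.le
      linarith
    · have : (t + 1) * U ≤ (q + T₀) * U := mul_le_mul_of_nonneg_right (by omega) hU.le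
      nlinarith

/-- Discrete intermediate value: a sequence with bounded steps passes through each slab. -/
lemma exists_index_in_slab (s : ℕ → ℤ) (n : ℕ) (G : ℤ) (hstep : ∀ i < n, s (i + 1) - s i ≤ G)
    (B : ℤ) (h0 : s 0 < B) (hn : B ≤ s n) :
    ∃ i, i ≤ n ∧ B ≤ s i ∧ s i < B + G := by
  classical
  have hex : ∃ i, i ≤ n ∧ B ≤ s i := ⟨n, le_rfl, hn⟩
  obtain ⟨i, hspec, hmin⟩ : ∃ i, (i ≤ n ∧ B ≤ s i) ∧ ∀ m < i, ¬ (m ≤ n ∧ B ≤ s m) :=
    ⟨Nat.find hex, Nat.find_spec hex, fun m hm => Nat.find_min hex hm⟩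
  refine ⟨i, hspec.1, hspec.2, ?_⟩
  have hipos : i ≠ 0 := by
    rintro rfl
    exact absurd hspec.2 (not_le.mpr h0)
  obtain ⟨j, rfl⟩ := Nat.exists_eq_succ_of_ne_zero hipos
  have h1 : s j < B := by
    by_contra hcon
    exact hmin j (Nat.lt_succ_self j) ⟨by omega, not_lt.mp hcon⟩
  have h2 := hstep j (by have := hspec.1; omega)
  rw [Nat.succ_eq_add_one]
  linarith

end Vale.Agent.Lib.P015
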