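import Vale.Agent.Lib.P015.Strip1

open Finset

namespace Vale.Agent.Lib.P015

lemma abs_diff_le_steps (x : ℕ → ℤ) (D₀ : ℕ) (n : ℕ)
    (hstep : ∀ i < n, |x (i + 1) - x i| ≤ D₀) (i m : ℕ) (h : i + m ≤ n) :
    |x (i + m) - x i| ≤ m * D₀ := by
  induction m with
  | zero => simp
  | succ m ih =>
    have h1 := ih (by omega)
    have h2 := hstep (i + m) (by omega)
    have e : x (i + (m + 1)) - x i = (x (i + m + 1) - x (i + m)) + (x (i + m) - x i) := by
      rw [show i + (m + 1) = i + m + 1 by ring]; ring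
    rw [e]
    refine (abs_add_le _ _).trans ?_
    push_cast
    linarith

/-- One fibre of the counting map: indices with the same chain shape on the same line. -/
lemma fiber_bound (n k D₀ : ℕ) (x y : ℕ → ℤ) (Q : Finset ℕ)
    (hQp : ∀ p ∈ Q, p.Prime) (hQ4 : ∀ p ∈ Q, p % 4 = 1)
    (hQbig : ∀ p ∈ Q, 2 * (k * D₀) ^ 2 < p)
    (T₀ : ℕ) (ε : ℝ) (hε : 0 ≤ ε) (hs : LineSieve k Q T₀ ε)
    (u₁ u₂ v₁ v₂ : ℤ) (huv : u₁ * v₁ + u₂ * v₂ = 1)
    (hinj : ∀ i ≤ n, ∀ j ≤ n, x i = x j → y i = y j → i = j)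
    (hx : ∀ i < n, |x (i + 1) - x i| ≤ D₀) (hy : ∀ i < n, |y (i + 1) - y i| ≤ D₀)
    (F : Finset ℕ) (c α : ℤ)
    (hFn : ∀ i ∈ F, i + k ≤ n)
    (hFphi : ∀ i ∈ F, ∀ p ∈ Q, ∀ r : ZMod p, r * r = -1 → ∀ m < k,
      phi r (x (i + m)) (y (i + m)) ≠ 0)
    (hFline : ∀ i ∈ F, u₂ * x i - u₁ * y i = c)
    (hFt : ∀ i ∈ F, α ≤ v₁ * x i + v₂ * y i ∧ v₁ * x i + v₂ * y i < α + T₀)
    (hFshape : ∀ i ∈ F, ∀ i' ∈ F, ∀ m < k,
      x (i + m) - x i = x (i' + m) - x i' ∧ y (i + m) - y i = y (i' + m) - y i') :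
    (F.card : ℝ) ≤ ε * T₀ := by
  classical
  rcases F.eq_empty_or_nonempty with rfl | ⟨i₀, hi₀⟩
  · simpa using mul_nonneg hε (Nat.cast_nonneg T₀)
  have huco : IsCoprime u₁ u₂ := ⟨v₁, v₂, by linarith⟩
  have hroot : ∀ p, ∀ _hp : p ∈ Q, ∃ r w : ZMod p, r * r = -1 ∧ w * phi r u₁ u₂ = 1 := by
    intro p hp
    have : Fact p.Prime := ⟨hQp p hp⟩
    obtain ⟨r, h1, h2⟩ := exists_root_ne (p := p) (hQ4 p hp) huco
    exact ⟨r, (phi r u₁ u₂)⁻¹, h1, inv_mul_cancel₀ h2⟩
  choose r w hr1 hr2 using hroot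
  set ox : ℕ → ℤ := fun m => x (i₀ + m) - x i₀ with hox
  set oy : ℕ → ℤ := fun m => y (i₀ + m) - y i₀ with hoy
  set cls : ∀ p, p ∈ Q → ℕ → ZMod p := fun p hp m =>
    -(w p hp * ((c : ZMod p) * phi (r p hp) v₂ (-v₁) + phi (r p hp) (ox m) (oy m))) with hcls
  set C : ∀ p : ℕ, Finset (ZMod p) := fun p =>
    if hp : p ∈ Q then (range k).image (cls p hp) else ∅ with hC
  have hi₀n := hFn i₀ hi₀
  have hCcard : ∀ p ∈ Q, (C p).card = k := by
    intro p hp
    have : Fact p.Prime := ⟨hQp p hp⟩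
    simp only [hC, dif_pos hp]
    rw [Finset.card_image_of_injOn, card_range]
    intro m hm m' hm' heq
    by_contra hne
    have hm1 : m < k := by simpa using hm
    have hm2 : m' < k := by simpa using hm'
    simp only [hcls] at heq
    have hΦ := hr2 p hp
    have heq2 : phi (r p hp) (ox m) (oy m) = phi (r p hp) (ox m') (oy m') := by
      linear_combination (-phi (r p hp) u₁ u₂) * heq
        + (-(phi (r p hp) (ox m) (oy m) - phi (r p hp) (ox m') (oy m'))) * hΦ
    have hzero : phi (r p hp) (ox m - ox m') (oy m - oy m') = 0 := by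
      have := phi_add (r p hp) (ox m') (oy m') (ox m - ox m') (oy m - oy m')
      simp only [add_sub_cancel] at this
      rw [heq2] at this
      exact (left_eq_add.mp this)
    have e1 : ox m - ox m' = x (i₀ + m) - x (i₀ + m') := by simp only [hox]; ring
    have e2 : oy m - oy m' = y (i₀ + m) - y (i₀ + m') := by simp only [hoy]; ring
    have hdist : ox m - ox m' ≠ 0 ∨ oy m - oy m' ≠ 0 := by
      by_contra hcon
      push Not at hcon
      rw [e1, e2] at hcon
      have := hinj (i₀ + m) (by omega) (i₀ + m') (by omega) (by linarith [hcon.1]) (by linarith [hcon.2])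
      omega
    have hbound : ∀ (z : ℕ → ℤ), (∀ i < n, |z (i + 1) - z i| ≤ D₀) →
        |z (i₀ + m) - z (i₀ + m')| ≤ (k : ℤ) * D₀ := by
      intro z hz
      rcases le_total m m' with hle | hle
      · obtain ⟨d, rfl⟩ := Nat.exists_eq_add_of_le hle
        have h1 := abs_diff_le_steps z D₀ n hz (i₀ + m) d (by omega)
        rw [abs_sub_comm]
        rw [show i₀ + (m + d) = i₀ + m + d by ring]
        refine h1.trans ?_
        have : (d : ℤ) ≤ k := by exact_mod_cast (by omega : d ≤ k)
        exact mul_le_mul_of_nonneg_right this (by positivity)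
      · obtain ⟨d, rfl⟩ := Nat.exists_eq_add_of_le hle
        have h1 := abs_diff_le_steps z D₀ n hz (i₀ + m') d (by omega)
        rw [show i₀ + (m' + d) = i₀ + m' + d by ring]
        refine h1.trans ?_
        have : (d : ℤ) ≤ k := by exact_mod_cast (by omega : d ≤ k)
        exact mul_le_mul_of_nonneg_right this (by positivity)
    have hsmall : (ox m - ox m') ^ 2 + (oy m - oy m') ^ 2 < (p : ℤ) := by
      rw [e1, e2]
      have h1 := hbound x hx
      have h2 := hbound y hy
      have h3 : (x (i₀ + m) - x (i₀ + m')) ^ 2 ≤ ((k : ℤ) * D₀) ^ 2 := sq_le_sq' (abs_le.mp h1).1 (abs_le.mp h1).2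
      have h4 : (y (i₀ + m) - y (i₀ + m')) ^ 2 ≤ ((k : ℤ) * D₀) ^ 2 := sq_le_sq' (abs_le.mp h2).1 (abs_le.mp h2).2
      have h5 : (2 * ((k : ℤ) * D₀) ^ 2) < (p : ℤ) := by exact_mod_cast hQbig p hp
      linarith
    exact phi_ne_zero_of_small (hr1 p hp) hdist hsmall hzero
  have hcount := hs C hCcard α
  refine le_trans ?_ hcount
  have hcardle : F.card ≤ ((Ico α (α + (T₀ : ℤ))).filter
      (fun t : ℤ => ∀ p ∈ Q, (t : ZMod p) ∉ C p)).card := by
    refine Finset.card_le_card_of_injOn (fun i => v₁ * x i + v₂ * y i) ?_ ?_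
    · intro i hi
      refine Finset.mem_coe.mpr (Finset.mem_filter.mpr ⟨?_, ?_⟩)
      · rw [mem_Ico]
        exact hFt i hi
      · intro p hp hmem
        simp only [hC, dif_pos hp, Finset.mem_image, mem_range] at hmem
        obtain ⟨m, hm, hmeq⟩ := hmem
        have hΦ := hr2 p hp
        set t := v₁ * x i + v₂ * y i with ht
        have hline := hFline i hi
        have hxi : x i = t * u₁ + c * v₂ := by
          rw [← hline, ht]; linear_combination (-x i) * huv
        have hyi : y i = t * u₂ + c * (-v₁) := by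
          rw [← hline, ht]; linear_combination (-y i) * huv
        have hsh := hFshape i hi i₀ hi₀ m hm
        have hxm : x (i + m) = x i + ox m := by simp only [hox]; linarith [hsh.1]
        have hym : y (i + m) = y i + oy m := by simp only [hoy]; linarith [hsh.2]
        have hnz := hFphi i hi p hp (r p hp) (hr1 p hp) m hm
        apply hnz
        rw [hxm, hym, phi_add, hxi, hyi]
        have hexp : phi (r p hp) (t * u₁ + c * v₂) (t * u₂ + c * (-v₁))
            = (t : ZMod p) * phi (r p hp) u₁ u₂ + (c : ZMod p) * phi (r p hp) v₂ (-v₁) := by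
          simp only [phi]; push_cast; ring
        rw [hexp]
        simp only [hcls] at hmeq
        have htcast : (t : ZMod p) * phi (r p hp) u₁ u₂
            = -((c : ZMod p) * phi (r p hp) v₂ (-v₁) + phi (r p hp) (ox m) (oy m)) := by
          rw [← hmeq]
          linear_combination (-((c : ZMod p) * phi (r p hp) v₂ (-v₁) + phi (r p hp) (ox m) (oy m))) * hΦ
        rw [htcast]
        ring
    · intro i hi j hj hij
      simp only at hij
      have hi' := Finset.mem_coe.mp hi
      have hj' := Finset.mem_coe.mp hj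
      have hlinei := hFline i hi'
      have hlinej := hFline j hj'
      have hxi : x i = (v₁ * x i + v₂ * y i) * u₁ + c * v₂ := by
        rw [← hlinei]; linear_combination (-x i) * huv
      have hyi : y i = (v₁ * x i + v₂ * y i) * u₂ + c * (-v₁) := by
        rw [← hlinei]; linear_combination (-y i) * huv
      have hxj : x j = (v₁ * x j + v₂ * y j) * u₁ + c * v₂ := by
        rw [← hlinej]; linear_combination (-x j) * huv
      have hyj : y j = (v₁ * x j + v₂ * y j) * u₂ + c * (-v₁) := by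
        rw [← hlinej]; linear_combination (-y j) * huv
      have h1 := hFn i hi'
      have h2 := hFn j hj'
      refine hinj i (by omega) j (by omega) ?_ ?_
      · rw [hxi, hxj, hij]
      · rw [hyi, hyj, hij]
  exact_mod_cast hcardle

end Vale.Agent.Lib.P015
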