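import Vale.Agent.Lib.P015.Strip2

open Finset

namespace Vale.Agent.Lib.P015

/-- The number of chain starters in a window. -/
lemma chain_count (n k D₀ : ℕ) (x y : ℕ → ℤ) (Q : Finset ℕ)
    (hQp : ∀ p ∈ Q, p.Prime) (hQ4 : ∀ p ∈ Q, p % 4 = 1)
    (hQbig : ∀ p ∈ Q, 2 * (k * D₀) ^ 2 < p)
    (T₀ : ℕ) (ε : ℝ) (hε : 0 ≤ ε) (hs : LineSieve k Q T₀ ε)
    (u₁ u₂ v₁ v₂ : ℤ) (huv : u₁ * v₁ + u₂ * v₂ = 1) (hU : 0 < u₁ ^ 2 + u₂ ^ 2)
    (hinj : ∀ i ≤ n, ∀ j ≤ n, x i = x j → y i = y j → i = j)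
    (hx : ∀ i < n, |x (i + 1) - x i| ≤ D₀) (hy : ∀ i < n, |y (i + 1) - y i| ≤ D₀)
    (G : Finset ℕ) (Lines : Finset ℤ) (A : ℤ)
    (hGn : ∀ i ∈ G, i + k ≤ n)
    (hGphi : ∀ i ∈ G, ∀ p ∈ Q, ∀ r : ZMod p, r * r = -1 → ∀ m < k,
      phi r (x (i + m)) (y (i + m)) ≠ 0)
    (hGline : ∀ i ∈ G, u₂ * x i - u₁ * y i ∈ Lines)
    (hGwin : ∀ i ∈ G, A ≤ u₁ * x i + u₂ * y i ∧
      u₁ * x i + u₂ * y i < A + (u₁ ^ 2 + u₂ ^ 2) * T₀) :
    (G.card : ℝ) ≤ (((2 * D₀ + 1) ^ 2) ^ k : ℕ) * Lines.card * (ε * T₀) := by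
  classical
  set S : Finset (ℤ × ℤ) := Icc (-(D₀ : ℤ)) D₀ ×ˢ Icc (-(D₀ : ℤ)) D₀ with hS
  have hScard : S.card = (2 * D₀ + 1) ^ 2 := by
    rw [hS, Finset.card_product, Int.card_Icc]
    have : ((D₀ : ℤ) + 1 - -(D₀ : ℤ)).toNat = 2 * D₀ + 1 := by omega
    rw [this]; ring
  set shape : ℕ → (Fin k → ℤ × ℤ) := fun i m =>
    (x (i + m + 1) - x (i + m), y (i + m + 1) - y (i + m)) with hshape
  set f : ℕ → (Fin k → ℤ × ℤ) × ℤ := fun i => (shape i, u₂ * x i - u₁ * y i) with hf
  have himage : G.image f ⊆ (Fintype.piFinset (fun _ : Fin k => S)) ×ˢ Lines := by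
    intro b hb
    obtain ⟨i, hi, rfl⟩ := Finset.mem_image.mp hb
    refine Finset.mem_product.mpr ⟨?_, hGline i hi⟩
    rw [Fintype.mem_piFinset]
    intro m
    have hm : (m : ℕ) < k := m.isLt
    have hi' := hGn i hi
    simp only [hf, hshape, hS, Finset.mem_product, Finset.mem_Icc]
    have h1 := abs_le.mp (hx (i + m) (by omega))
    have h2 := abs_le.mp (hy (i + m) (by omega))
    exact ⟨h1, h2⟩
  have himcard : (G.image f).card ≤ ((2 * D₀ + 1) ^ 2) ^ k * Lines.card := by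
    refine (Finset.card_le_card himage).trans ?_
    rw [Finset.card_product, Fintype.card_piFinset]
    simp [hScard]
  have hfib : ∀ b ∈ G.image f, ((G.filter (fun i => f i = b)).card : ℝ) ≤ ε * T₀ := by
    intro b _
    obtain ⟨α, hα⟩ := exists_window_interval (u₁ ^ 2 + u₂ ^ 2) hU T₀ A (b.2 * (u₁ * v₂ - u₂ * v₁))
    refine fiber_bound n k D₀ x y Q hQp hQ4 hQbig T₀ ε hε hs u₁ u₂ v₁ v₂ huv hinj hx hy _ b.2 α
      ?_ ?_ ?_ ?_ ?_
    · intro i hi
      exact hGn i (Finset.mem_filter.mp hi).1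
    · intro i hi
      exact hGphi i (Finset.mem_filter.mp hi).1
    · intro i hi
      have := (Finset.mem_filter.mp hi).2
      rw [← this]
    · intro i hi
      have hi1 := (Finset.mem_filter.mp hi).1
      have hi2 := (Finset.mem_filter.mp hi).2
      have hc : u₂ * x i - u₁ * y i = b.2 := by rw [← hi2]
      have hw := hGwin i hi1
      refine (hα (v₁ * x i + v₂ * y i)).mp ?_
      have e : (v₁ * x i + v₂ * y i) * (u₁ ^ 2 + u₂ ^ 2) + b.2 * (u₁ * v₂ - u₂ * v₁)
          = u₁ * x i + u₂ * y i := by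
        rw [← hc]
        linear_combination (u₁ * x i + u₂ * y i) * huv
      rw [e]
      exact hw
    · intro i hi i' hi' m hm
      have hi1 := (Finset.mem_filter.mp hi).1
      have hi1' := (Finset.mem_filter.mp hi').1
      have hi2 := (Finset.mem_filter.mp hi).2
      have hi2' := (Finset.mem_filter.mp hi').2
      have hsh : shape i = shape i' := by
        have : f i = f i' := by rw [hi2, hi2']
        exact (Prod.mk.inj this).1
      have key : ∀ m' < k, x (i + m') - x i = x (i' + m') - x i' ∧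
          y (i + m') - y i = y (i' + m') - y i' := by
        intro m'
        induction m' with
        | zero => intro _; simp
        | succ m' ih =>
          intro hm'
          have h1 := ih (by omega)
          have h2 := congrFun hsh ⟨m', by omega⟩
          simp only [hshape, Prod.mk.injEq] at h2
          constructor
          · have := h2.1
            rw [show i + (m' + 1) = i + m' + 1 by ring, show i' + (m' + 1) = i' + m' + 1 by ring]
            linarith [h1.1]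
          · have := h2.2
            rw [show i + (m' + 1) = i + m' + 1 by ring, show i' + (m' + 1) = i' + m' + 1 by ring]
            linarith [h1.2]
      exact key m hm
  have hsum : (G.card : ℝ) = ∑ b ∈ G.image f, ((G.filter (fun i => f i = b)).card : ℝ) := by
    rw [Finset.card_eq_sum_card_image f G]
    push_cast
    rfl
  have hnn : (0 : ℝ) ≤ ε * T₀ := mul_nonneg hε (by positivity)
  calc (G.card : ℝ) = ∑ b ∈ G.image f, ((G.filter (fun i => f i = b)).card : ℝ) := hsum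
    _ ≤ ∑ _b ∈ G.image f, (ε * T₀) := Finset.sum_le_sum hfib
    _ = ((G.image f).card : ℝ) * (ε * T₀) := by simp
    _ ≤ _ := by
        refine mul_le_mul_of_nonneg_right ?_ hnn
        exact_mod_cast himcard

end Vale.Agent.Lib.P015
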