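import Vale.Agent.Lib.P015.Strip3

open Finset

namespace Vale.Agent.Lib.P015

/-- Integer points of bounded squared norm along an injective path. -/
lemma card_exceptional (n y₁ : ℕ) (x y : ℕ → ℤ)
    (hinj : ∀ i ≤ n, ∀ j ≤ n, x i = x j → y i = y j → i = j) :
    ((range (n + 1)).filter (fun l => x l ^ 2 + y l ^ 2 ≤ y₁)).card ≤ (2 * y₁ + 1) ^ 2 := by
  classical
  have hbox : ((range (n + 1)).filter (fun l => x l ^ 2 + y l ^ 2 ≤ y₁)).card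
      ≤ (Icc (-(y₁ : ℤ)) y₁ ×ˢ Icc (-(y₁ : ℤ)) y₁).card := by
    refine Finset.card_le_card_of_injOn (fun l => (x l, y l)) ?_ ?_
    · intro l hl
      have hl' := (Finset.mem_filter.mp (Finset.mem_coe.mp hl)).2
      have hsq : ∀ w : ℤ, |w| ≤ w ^ 2 := by
        intro w
        rcases eq_or_ne w 0 with rfl | hw
        · simp
        · have h1 : 1 ≤ |w| := Int.one_le_abs hw
          rw [← sq_abs]
          nlinarith
      have h1 : x l ^ 2 ≤ y₁ := by nlinarith [sq_nonneg (y l)]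
      have h2 : y l ^ 2 ≤ y₁ := by nlinarith [sq_nonneg (x l)]
      have h3 := abs_le.mp ((hsq (x l)).trans h1)
      have h4 := abs_le.mp ((hsq (y l)).trans h2)
      simp only [Finset.coe_product, Set.mem_prod, Finset.mem_coe, Finset.mem_Icc]
      exact ⟨h3, h4⟩
    · intro l hl l' hl' h
      have h1 := mem_range.mp (Finset.mem_filter.mp (Finset.mem_coe.mp hl)).1
      have h2 := mem_range.mp (Finset.mem_filter.mp (Finset.mem_coe.mp hl')).1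
      simp only [Prod.mk.injEq] at h
      exact hinj l (by omega) l' (by omega) h.1 h.2
  refine hbox.trans (le_of_eq ?_)
  rw [Finset.card_product, Int.card_Icc]
  have : ((y₁ : ℤ) + 1 - -(y₁ : ℤ)).toNat = 2 * y₁ + 1 := by omega
  rw [this]; ring

/-- A real 2 by 2 estimate: lines in a window of a strip. -/
lemma line_spread (a b : ℝ) (hab : a ^ 2 + b ^ 2 = 1) (u₁ u₂ : ℝ) (hU1 : 1 ≤ u₁ ^ 2 + u₂ ^ 2)
    (T₀ : ℝ) (hT₀ : 1 ≤ T₀) (he : |a * u₁ + b * u₂| ≤ 1 / (T₀ + 1)) (W₀ : ℝ) (hW₀ : 0 ≤ W₀)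
    (dx dy : ℝ) (hd : |a * dx + b * dy| ≤ 2 * W₀)
    (hs : |u₁ * dx + u₂ * dy| ≤ (u₁ ^ 2 + u₂ ^ 2) * T₀) :
    (u₂ * dx - u₁ * dy) ^ 2 ≤ 2 * (u₁ ^ 2 + u₂ ^ 2) * (2 * W₀ + 1) ^ 2 := by
  set U := u₁ ^ 2 + u₂ ^ 2 with hUdef
  set e₁ := a * u₁ + b * u₂ with he₁
  set e₂ := a * u₂ - b * u₁ with he₂
  set d := a * dx + b * dy with hddef
  set s := u₁ * dx + u₂ * dy with hsdef
  set γ := u₂ * dx - u₁ * dy with hγ
  have hid : U * d = s * e₁ + γ * e₂ := by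
    simp only [hUdef, he₁, he₂, hddef, hsdef, hγ]
    ring
  have hsq : e₁ ^ 2 + e₂ ^ 2 = U := by
    simp only [hUdef, he₁, he₂]
    have : (a * u₁ + b * u₂) ^ 2 + (a * u₂ - b * u₁) ^ 2 = (a ^ 2 + b ^ 2) * (u₁ ^ 2 + u₂ ^ 2) := by ring
    rw [this, hab]; ring
  have hT₀pos : 0 < T₀ := by linarith
  have he1small : |e₁| ≤ 1 / 2 := by
    refine he.trans ?_
    rw [div_le_div_iff₀ (by linarith) (by norm_num)]
    linarith
  have he1sq : e₁ ^ 2 ≤ 1 / 4 := by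
    have := sq_le_sq' (abs_le.mp he1small).1 (abs_le.mp he1small).2
    nlinarith
  have he2 : U / 2 ≤ e₂ ^ 2 := by nlinarith
  have hγe : |γ * e₂| ≤ U * (2 * W₀ + 1) := by
    have : γ * e₂ = U * d - s * e₁ := by linarith
    rw [this]
    refine (abs_sub _ _).trans ?_
    rw [abs_mul, abs_mul, abs_of_pos (by linarith : 0 < U)]
    have h1 : U * |d| ≤ U * (2 * W₀) := mul_le_mul_of_nonneg_left hd (by linarith)
    have h2 : |s| * |e₁| ≤ (U * T₀) * (1 / (T₀ + 1)) :=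
      mul_le_mul hs he (abs_nonneg _) (by positivity)
    have h3 : (U * T₀) * (1 / (T₀ + 1)) ≤ U := by
      rw [mul_one_div, div_le_iff₀ (by linarith)]
      nlinarith
    nlinarith
  have hsq2 : γ ^ 2 * e₂ ^ 2 ≤ (U * (2 * W₀ + 1)) ^ 2 := by
    have := sq_le_sq' (abs_le.mp hγe).1 (abs_le.mp hγe).2
    rwa [mul_pow] at this
  have hUpos : 0 < U := by linarith
  have h5 : γ ^ 2 * (U / 2) ≤ (U * (2 * W₀ + 1)) ^ 2 :=
    le_trans (mul_le_mul_of_nonneg_left he2 (sq_nonneg γ)) hsq2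
  have h6 : U * (γ ^ 2) ≤ U * (2 * U * (2 * W₀ + 1) ^ 2) := by
    have e1 : U * γ ^ 2 = 2 * (γ ^ 2 * (U / 2)) := by ring
    have e2 : U * (2 * U * (2 * W₀ + 1) ^ 2) = 2 * (U * (2 * W₀ + 1)) ^ 2 := by ring
    rw [e1, e2]
    linarith
  exact le_of_mul_le_mul_left h6 hUpos

/-- A real 2 by 2 estimate: the final distance bound. -/
lemma final_distance (a b : ℝ) (hab : a ^ 2 + b ^ 2 = 1) (u₁ u₂ : ℝ) (hU1 : 1 ≤ u₁ ^ 2 + u₂ ^ 2)
    (he : |a * u₁ + b * u₂| ≤ 1 / 2) (W₀ Λ : ℝ) (hW₀ : 0 ≤ W₀) (hΛ : 0 ≤ Λ)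
    (dx dy : ℝ) (hd : |a * dx + b * dy| ≤ 2 * W₀) (hs : |u₁ * dx + u₂ * dy| ≤ Λ) :
    dx ^ 2 + dy ^ 2 ≤ (2 * (2 * W₀ + Λ)) ^ 2 := by
  set U := u₁ ^ 2 + u₂ ^ 2 with hUdef
  set e₁ := a * u₁ + b * u₂ with he₁
  set e₂ := a * u₂ - b * u₁ with he₂
  set d := a * dx + b * dy with hddef
  set s := u₁ * dx + u₂ * dy with hsdef
  set γ := u₂ * dx - u₁ * dy with hγ
  have hid : U * d = s * e₁ + γ * e₂ := by
    simp only [hUdef, he₁, he₂, hddef, hsdef, hγ]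
    ring
  have hsq : e₁ ^ 2 + e₂ ^ 2 = U := by
    simp only [hUdef, he₁, he₂]
    have : (a * u₁ + b * u₂) ^ 2 + (a * u₂ - b * u₁) ^ 2 = (a ^ 2 + b ^ 2) * (u₁ ^ 2 + u₂ ^ 2) := by ring
    rw [this, hab]; ring
  have he1sq : e₁ ^ 2 ≤ 1 / 4 := by
    have := sq_le_sq' (abs_le.mp he).1 (abs_le.mp he).2
    nlinarith
  have he2 : U / 2 ≤ e₂ ^ 2 := by nlinarith
  have hUpos : 0 < U := by linarith
  have hγe : |γ * e₂| ≤ U * (2 * W₀) + Λ := by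
    have : γ * e₂ = U * d - s * e₁ := by linarith
    rw [this]
    refine (abs_sub _ _).trans ?_
    rw [abs_mul, abs_mul, abs_of_pos hUpos]
    have h1 : U * |d| ≤ U * (2 * W₀) := mul_le_mul_of_nonneg_left hd (by linarith)
    have h2 : |s| * |e₁| ≤ Λ * 1 :=
      mul_le_mul hs (he.trans (by norm_num)) (abs_nonneg _) hΛ
    linarith
  have hbase : 0 ≤ U * (2 * W₀) + Λ := by positivity
  have hle2 : U * (2 * W₀) + Λ ≤ U * (2 * W₀ + Λ) := by nlinarith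
  have hsq2 : γ ^ 2 * e₂ ^ 2 ≤ (U * (2 * W₀ + Λ)) ^ 2 := by
    have h3 : |γ * e₂| ≤ U * (2 * W₀ + Λ) := hγe.trans hle2
    have := sq_le_sq' (abs_le.mp h3).1 (abs_le.mp h3).2
    rwa [mul_pow] at this
  have h5 : γ ^ 2 * (U / 2) ≤ (U * (2 * W₀ + Λ)) ^ 2 :=
    le_trans (mul_le_mul_of_nonneg_left he2 (sq_nonneg γ)) hsq2
  have hγ2 : γ ^ 2 ≤ 2 * U * (2 * W₀ + Λ) ^ 2 := by
    have h6 : U * (γ ^ 2) ≤ U * (2 * U * (2 * W₀ + Λ) ^ 2) := by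
      have e1 : U * γ ^ 2 = 2 * (γ ^ 2 * (U / 2)) := by ring
      have e2 : U * (2 * U * (2 * W₀ + Λ) ^ 2) = 2 * (U * (2 * W₀ + Λ)) ^ 2 := by ring
      rw [e1, e2]
      linarith
    exact le_of_mul_le_mul_left h6 hUpos
  have hs2 : s ^ 2 ≤ (2 * W₀ + Λ) ^ 2 := by
    have h7 : |s| ≤ 2 * W₀ + Λ := by linarith
    exact sq_le_sq' (abs_le.mp h7).1 (abs_le.mp h7).2
  have hnorm : U * (dx ^ 2 + dy ^ 2) = s ^ 2 + γ ^ 2 := by
    simp only [hUdef, hsdef, hγ]; ring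
  have hX := sq_nonneg (2 * W₀ + Λ)
  have h8 : U * (dx ^ 2 + dy ^ 2) ≤ U * (3 * (2 * W₀ + Λ) ^ 2) := by
    rw [hnorm]
    have hU3 : U * (3 * (2 * W₀ + Λ) ^ 2) = 3 * (U * (2 * W₀ + Λ) ^ 2) := by ring
    have h10 : (2 * W₀ + Λ) ^ 2 ≤ U * (2 * W₀ + Λ) ^ 2 := by
      have := mul_le_mul_of_nonneg_right hU1 hX
      simpa using this
    have h11 : 2 * U * (2 * W₀ + Λ) ^ 2 = 2 * (U * (2 * W₀ + Λ) ^ 2) := by ring
    rw [hU3]
    rw [h11] at hγ2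
    linarith
  have h9 := le_of_mul_le_mul_left h8 hUpos
  have e3 : (2 * (2 * W₀ + Λ)) ^ 2 = 4 * (2 * W₀ + Λ) ^ 2 := by ring
  rw [e3]
  linarith

end Vale.Agent.Lib.P015
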