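import Vale.Agent.Lib.P015.Strip4

open Finset

namespace Vale.Agent.Lib.P015

/-- Selecting `J` indices in distinct slabs of a window. -/
lemma slab_indices (s : ℕ → ℤ) (n G₁ J : ℕ) (A : ℤ) (hA : s 0 < A)
    (hstep : ∀ i < n, s (i + 1) - s i ≤ G₁) (hJ : A + J * G₁ ≤ s n) :
    ∃ I : Finset ℕ, I.card = J ∧ ∀ i ∈ I, i ≤ n ∧ A ≤ s i ∧ s i < A + J * G₁ := by
  classical
  have hG0 : (0 : ℤ) ≤ (G₁ : ℤ) := by positivity
  have hslab : ∀ j : ℕ, ∃ i, j < J → (i ≤ n ∧ A + j * G₁ ≤ s i ∧ s i < A + j * G₁ + G₁) := by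
    intro j
    by_cases hj : j < J
    · have hj0 : (0 : ℤ) ≤ (j : ℤ) * G₁ := by positivity
      have hjJ : (j : ℤ) ≤ J := by exact_mod_cast hj.le
      have h4 : (j : ℤ) * G₁ ≤ J * G₁ := mul_le_mul_of_nonneg_right hjJ hG0
      obtain ⟨i, h1, h2, h3⟩ := exists_index_in_slab s n G₁ hstep (A + j * G₁)
        (by linarith) (by linarith)
      exact ⟨i, fun _ => ⟨h1, h2, h3⟩⟩
    · exact ⟨0, fun h => absurd h hj⟩
  choose f hf using hslab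
  have hfinj : Set.InjOn f (range J : Set ℕ) := by
    have hlt : ∀ j j', j < J → j' < J → j < j' → f j ≠ f j' := by
      intro j j' hj hj' hjj' heq
      have h1 := (hf j hj).2.2
      have h2 := (hf j' hj').2.1
      rw [← heq] at h2
      have h3 : (j : ℤ) + 1 ≤ j' := by exact_mod_cast hjj'
      have h4 : ((j : ℤ) + 1) * G₁ ≤ j' * G₁ := mul_le_mul_of_nonneg_right h3 hG0
      have h5 : ((j : ℤ) + 1) * G₁ = j * G₁ + G₁ := by ring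
      linarith
    intro j hj j' hj' heq
    have hj1 : j < J := by simpa using hj
    have hj2 : j' < J := by simpa using hj'
    rcases lt_trichotomy j j' with h | h | h
    · exact absurd heq (hlt j j' hj1 hj2 h)
    · exact h
    · exact absurd heq.symm (hlt j' j hj2 hj1 h)
  refine ⟨(range J).image f, ?_, ?_⟩
  · rw [Finset.card_image_of_injOn hfinj, card_range]
  · intro i hi
    obtain ⟨j, hj, rfl⟩ := Finset.mem_image.mp hi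
    have hj' : j < J := by simpa using hj
    obtain ⟨h1, h2, h3⟩ := hf j hj'
    refine ⟨h1, ?_, ?_⟩
    · have : (0 : ℤ) ≤ (j : ℤ) * G₁ := by positivity
      linarith
    · have hjJ : (j : ℤ) + 1 ≤ J := by exact_mod_cast hj'
      have h4 : ((j : ℤ) + 1) * G₁ ≤ J * G₁ := mul_le_mul_of_nonneg_right hjJ hG0
      have h5 : ((j : ℤ) + 1) * G₁ = j * G₁ + G₁ := by ring
      linarith

/-- At most `(2 y₁ + 1)^2 k` starting indices see a small point in the next `k` steps. -/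
lemma bad_count (n k y₁ : ℕ) (x y : ℕ → ℤ)
    (hinj : ∀ i ≤ n, ∀ j ≤ n, x i = x j → y i = y j → i = j)
    (I : Finset ℕ) (hIk : ∀ i ∈ I, i + k ≤ n) :
    (I.filter (fun i => ¬ ∀ m < k, ¬ (x (i + m) ^ 2 + y (i + m) ^ 2 ≤ y₁))).card
      ≤ (2 * y₁ + 1) ^ 2 * k := by
  classical
  set Exc := (range (n + 1)).filter (fun l => x l ^ 2 + y l ^ 2 ≤ y₁) with hExc
  have hExcCard : Exc.card ≤ (2 * y₁ + 1) ^ 2 := card_exceptional n y₁ x y hinj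
  have hsub : (I.filter (fun i => ¬ ∀ m < k, ¬ (x (i + m) ^ 2 + y (i + m) ^ 2 ≤ y₁)))
      ⊆ (Exc ×ˢ range k).image (fun q : ℕ × ℕ => q.1 - q.2) := by
    intro i hi
    obtain ⟨hiI, hib⟩ := Finset.mem_filter.mp hi
    push Not at hib
    obtain ⟨m, hm, hle⟩ := hib
    have hik := hIk i hiI
    refine Finset.mem_image.mpr ⟨(i + m, m), ?_, by simp⟩
    refine Finset.mem_product.mpr ⟨?_, by simpa using hm⟩
    exact Finset.mem_filter.mpr ⟨by simp only [mem_range]; omega, hle⟩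
  calc _ ≤ ((Exc ×ˢ range k).image (fun q : ℕ × ℕ => q.1 - q.2)).card :=
        Finset.card_le_card hsub
    _ ≤ (Exc ×ˢ range k).card := Finset.card_image_le
    _ = Exc.card * k := by rw [Finset.card_product, card_range]
    _ ≤ _ := Nat.mul_le_mul_right _ hExcCard

/-- Two points of the strip in a common window lie on nearby rational lines. -/
lemma spread_int (a b c' : ℝ) (hab : a ^ 2 + b ^ 2 = 1) (W₀ T₀ : ℕ) (hT₀ : 0 < T₀)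
    (u₁ u₂ : ℤ) (hU : 0 < u₁ ^ 2 + u₂ ^ 2)
    (hclose : |a * (u₁ : ℝ) + b * (u₂ : ℝ)| ≤ 1 / ((T₀ : ℝ) + 1))
    (p₁ q₁ p₂ q₂ : ℤ)
    (h1 : |a * (p₁ : ℝ) + b * (q₁ : ℝ) - c'| ≤ W₀) (h2 : |a * (p₂ : ℝ) + b * (q₂ : ℝ) - c'| ≤ W₀)
    (hs : |(u₁ * p₁ + u₂ * q₁) - (u₁ * p₂ + u₂ * q₂)| ≤ (u₁ ^ 2 + u₂ ^ 2) * T₀) :
    |(u₂ * p₁ - u₁ * q₁) - (u₂ * p₂ - u₁ * q₂)|
      ≤ ((2 * (u₁.natAbs + u₂.natAbs) * (2 * W₀ + 1) : ℕ) : ℤ) := by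
  have hU1 : (1 : ℝ) ≤ (u₁ : ℝ) ^ 2 + (u₂ : ℝ) ^ 2 := by
    have : (1 : ℤ) ≤ u₁ ^ 2 + u₂ ^ 2 := hU
    exact_mod_cast this
  have hT1 : (1 : ℝ) ≤ (T₀ : ℝ) := by exact_mod_cast hT₀
  have hdist := line_spread a b hab (u₁ : ℝ) (u₂ : ℝ) hU1 (T₀ : ℝ) hT1 hclose (W₀ : ℝ)
    (by positivity) ((p₁ : ℝ) - p₂) ((q₁ : ℝ) - q₂)
    (by
      have hs1 := abs_le.mp h1
      have hs2 := abs_le.mp h2
      have e : a * ((p₁ : ℝ) - p₂) + b * ((q₁ : ℝ) - q₂)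
          = (a * (p₁ : ℝ) + b * (q₁ : ℝ) - c') - (a * (p₂ : ℝ) + b * (q₂ : ℝ) - c') := by ring
      rw [e, abs_le]
      constructor <;> linarith [hs1.1, hs1.2, hs2.1, hs2.2])
    (by
      have hz : |u₁ * (p₁ - p₂) + u₂ * (q₁ - q₂)| ≤ (u₁ ^ 2 + u₂ ^ 2) * T₀ := by
        have e : u₁ * (p₁ - p₂) + u₂ * (q₁ - q₂) = (u₁ * p₁ + u₂ * q₁) - (u₁ * p₂ + u₂ * q₂) := by
          ring
        rw [e]; exact hs
      have hz' : ((|u₁ * (p₁ - p₂) + u₂ * (q₁ - q₂)| : ℤ) : ℝ) ≤ (((u₁ ^ 2 + u₂ ^ 2) * T₀ : ℤ) : ℝ) := by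
        exact_mod_cast hz
      push_cast at hz'
      exact hz')
  set ωN : ℕ := u₁.natAbs + u₂.natAbs with hωN
  have hωZ : (ωN : ℤ) = |u₁| + |u₂| := by simp [hωN]
  have hU_le : u₁ ^ 2 + u₂ ^ 2 ≤ (ωN : ℤ) ^ 2 := by
    rw [hωZ]
    nlinarith [abs_nonneg u₁, abs_nonneg u₂, sq_abs u₁, sq_abs u₂, mul_nonneg (abs_nonneg u₁) (abs_nonneg u₂)]
  set R : ℕ := 2 * ωN * (2 * W₀ + 1) with hR
  have hfinal : (((u₂ * p₁ - u₁ * q₁) - (u₂ * p₂ - u₁ * q₂) : ℤ) : ℝ) ^ 2 ≤ ((R : ℝ)) ^ 2 := by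
    have e : (((u₂ * p₁ - u₁ * q₁) - (u₂ * p₂ - u₁ * q₂) : ℤ) : ℝ)
        = (u₂ : ℝ) * ((p₁ : ℝ) - p₂) - (u₁ : ℝ) * ((q₁ : ℝ) - q₂) := by
      push_cast; ring
    rw [e]
    refine hdist.trans ?_
    have hUω : ((u₁ : ℝ) ^ 2 + (u₂ : ℝ) ^ 2) ≤ (ωN : ℝ) ^ 2 := by
      have : ((u₁ ^ 2 + u₂ ^ 2 : ℤ) : ℝ) ≤ (((ωN : ℤ) ^ 2 : ℤ) : ℝ) := by exact_mod_cast hU_le
      push_cast at this
      exact this
    have hRe : (R : ℝ) = 2 * ωN * (2 * W₀ + 1) := by simp only [hR]; push_cast; ring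
    rw [hRe]
    have hW : (0 : ℝ) ≤ (2 * (W₀ : ℝ) + 1) ^ 2 := by positivity
    have hω1 : (0 : ℝ) ≤ (ωN : ℝ) ^ 2 := by positivity
    have e2 : (2 * (ωN : ℝ) * (2 * (W₀ : ℝ) + 1)) ^ 2 = 4 * ((ωN : ℝ) ^ 2 * (2 * (W₀ : ℝ) + 1) ^ 2) := by ring
    have e3 : 2 * ((u₁ : ℝ) ^ 2 + (u₂ : ℝ) ^ 2) * (2 * (W₀ : ℝ) + 1) ^ 2
        = 2 * (((u₁ : ℝ) ^ 2 + (u₂ : ℝ) ^ 2) * (2 * (W₀ : ℝ) + 1) ^ 2) := by ring
    rw [e2, e3]
    have h10 := mul_le_mul_of_nonneg_right hUω hW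
    have h11 := mul_nonneg hω1 hW
    linarith
  have habs := abs_le_of_sq_le_sq hfinal (by positivity)
  have : ((|(u₂ * p₁ - u₁ * q₁) - (u₂ * p₂ - u₁ * q₂)| : ℤ) : ℝ) ≤ ((R : ℤ) : ℝ) := by
    push_cast at habs ⊢
    exact habs
  exact_mod_cast this

/-- A finite set of integers of bounded spread lies in an interval of controlled size. -/
lemma exists_lines {ι : Type*} (G : Finset ι) (f : ι → ℤ) (R : ℕ)
    (h : ∀ i ∈ G, ∀ i' ∈ G, |f i - f i'| ≤ (R : ℤ)) :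
    ∃ Lines : Finset ℤ, Lines.card = 2 * R + 1 ∧ ∀ i ∈ G, f i ∈ Lines := by
  classical
  by_cases hne : G.Nonempty
  · obtain ⟨i₀, hi₀⟩ := hne
    refine ⟨Icc (f i₀ - R) (f i₀ + R), ?_, ?_⟩
    · rw [Int.card_Icc]; omega
    · intro i hi
      have := abs_le.mp (h i hi i₀ hi₀)
      rw [Finset.mem_Icc]
      constructor <;> linarith [this.1, this.2]
  · refine ⟨Icc (-(R : ℤ)) R, ?_, ?_⟩
    · rw [Int.card_Icc]; omega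
    · intro i hi
      exact absurd ⟨i, hi⟩ hne

/-- Real arithmetic: comparison of the two counts. -/
lemma crossing_arith (D₀ k y₁ T₀ W₀ ωN J Good UN G₁ R : ℕ) (hD : 1 ≤ D₀) (hωpos : 1 ≤ ωN)
    (hT₀ : 0 < T₀) (ε B : ℝ) (hBpos : 0 ≤ B) (hε : 0 ≤ ε)
    (hG₁ : G₁ = ωN * D₀) (hR : R = 2 * ωN * (2 * W₀ + 1))
    (hεsmall : ε * (20 * (D₀ : ℝ) * B * (2 * (W₀ : ℝ) + 1)) ≤ 1)
    (hT₀big : 4 * D₀ * (1 + k * (2 * y₁ + 1) ^ 2) < T₀)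
    (hcount : (Good : ℝ) ≤ B * ((2 * R + 1 : ℕ) : ℝ) * (ε * T₀))
    (hJ2 : UN * T₀ < (J + 1) * G₁)
    (hω2 : ωN ^ 2 ≤ 2 * UN)
    (hJle : J ≤ Good + (2 * y₁ + 1) ^ 2 * k) : False := by
  have hDr : (1 : ℝ) ≤ (D₀ : ℝ) := by exact_mod_cast hD
  have hωr : (1 : ℝ) ≤ (ωN : ℝ) := by exact_mod_cast hωpos
  have hTr : (0 : ℝ) < (T₀ : ℝ) := by exact_mod_cast hT₀
  have hWr : (0 : ℝ) ≤ (W₀ : ℝ) := by positivity
  have hLinesR : (((2 * R + 1 : ℕ) : ℝ)) ≤ 5 * (ωN : ℝ) * (2 * (W₀ : ℝ) + 1) := by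
    have e : (((2 * R + 1 : ℕ) : ℝ)) = 4 * (ωN : ℝ) * (2 * (W₀ : ℝ) + 1) + 1 := by
      rw [hR]; push_cast; ring
    rw [e]
    have h1 : 1 ≤ (ωN : ℝ) * (2 * (W₀ : ℝ) + 1) := by
      have : (0 : ℝ) ≤ (ωN : ℝ) * (W₀ : ℝ) := by positivity
      nlinarith
    have e2 : 5 * (ωN : ℝ) * (2 * (W₀ : ℝ) + 1) = 5 * ((ωN : ℝ) * (2 * (W₀ : ℝ) + 1)) := by ring
    have e3 : 4 * (ωN : ℝ) * (2 * (W₀ : ℝ) + 1) = 4 * ((ωN : ℝ) * (2 * (W₀ : ℝ) + 1)) := by ring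
    rw [e2, e3]; linarith
  have hGoodBound : (Good : ℝ) ≤ (ωN : ℝ) * T₀ / (4 * D₀) := by
    have h1 : (Good : ℝ) ≤ B * (5 * (ωN : ℝ) * (2 * (W₀ : ℝ) + 1)) * (ε * T₀) := by
      refine hcount.trans ?_
      gcongr
    have h2 : B * (5 * (ωN : ℝ) * (2 * (W₀ : ℝ) + 1)) * (ε * T₀)
        = (ε * (20 * (D₀ : ℝ) * B * (2 * (W₀ : ℝ) + 1))) * ((ωN : ℝ) * T₀ / (4 * D₀)) := by
      field_simp
      ring
    rw [h2] at h1
    have hnn : 0 ≤ (ωN : ℝ) * T₀ / (4 * D₀) := by positivity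
    have h3 := mul_le_mul_of_nonneg_right hεsmall hnn
    rw [one_mul] at h3
    exact h1.trans h3
  have hJreal : (ωN : ℝ) * T₀ < 2 * (J + 1) * D₀ := by
    have h1 : ((UN * T₀ : ℕ) : ℝ) < (((J + 1) * G₁ : ℕ) : ℝ) := by exact_mod_cast hJ2
    have hω2r : (ωN : ℝ) ^ 2 ≤ 2 * (UN : ℝ) := by exact_mod_cast hω2
    push_cast at h1
    have hG : (G₁ : ℝ) = (ωN : ℝ) * D₀ := by rw [hG₁]; push_cast; ring
    rw [hG] at h1
    have h2 : (ωN : ℝ) * ((ωN : ℝ) * T₀) < (ωN : ℝ) * (2 * (J + 1) * D₀) := by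
      have h3 : (ωN : ℝ) ^ 2 * T₀ ≤ 2 * (UN : ℝ) * T₀ := mul_le_mul_of_nonneg_right hω2r hTr.le
      have e1 : (ωN : ℝ) * ((ωN : ℝ) * T₀) = (ωN : ℝ) ^ 2 * T₀ := by ring
      have e2 : (ωN : ℝ) * (2 * (J + 1) * D₀) = 2 * (((J : ℝ) + 1) * ((ωN : ℝ) * D₀)) := by ring
      have e3 : 2 * (UN : ℝ) * T₀ = 2 * ((UN : ℝ) * T₀) := by ring
      rw [e1, e2]
      rw [e3] at h3
      linarith
    exact lt_of_mul_lt_mul_left h2 (by linarith)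
  have hJle' : (J : ℝ) ≤ Good + (2 * y₁ + 1) ^ 2 * k := by exact_mod_cast hJle
  have h1 : (ωN : ℝ) * T₀ < 2 * ((ωN : ℝ) * T₀ / (4 * D₀) + (2 * y₁ + 1) ^ 2 * k + 1) * D₀ := by
    refine hJreal.trans_le ?_
    gcongr
    linarith
  have h2 : 2 * ((ωN : ℝ) * T₀ / (4 * D₀) + (2 * y₁ + 1) ^ 2 * k + 1) * D₀
      = (ωN : ℝ) * T₀ / 2 + 2 * D₀ * ((2 * y₁ + 1) ^ 2 * k + 1) := by
    field_simp
    ring
  rw [h2] at h1
  have hT₀big' : (4 * (D₀ : ℝ) * (1 + k * (2 * y₁ + 1) ^ 2)) < T₀ := by exact_mod_cast hT₀big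
  have h3 : (T₀ : ℝ) ≤ (ωN : ℝ) * T₀ := by nlinarith
  have e : 4 * (D₀ : ℝ) * (1 + k * (2 * y₁ + 1) ^ 2) = 2 * (2 * D₀ * ((2 * y₁ + 1) ^ 2 * k + 1)) := by ring
  rw [e] at hT₀big'
  linarith

/-- The crossing contradiction: a long crossing of a strip is impossible. -/
lemma no_long_crossing (D₀ k : ℕ) (hD : 1 ≤ D₀) (Q : Finset ℕ)
    (hQp : ∀ p ∈ Q, p.Prime) (hQ4 : ∀ p ∈ Q, p % 4 = 1)
    (hQbig : ∀ p ∈ Q, 2 * (k * D₀) ^ 2 < p)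
    (y₁ : ℕ) (T₀ : ℕ) (hT₀ : 0 < T₀) (ε : ℝ) (hε : 0 ≤ ε) (hs : LineSieve k Q T₀ ε)
    (W₀ : ℕ)
    (hεsmall : ε * (20 * (D₀ : ℝ) * (((2 * D₀ + 1) ^ 2) ^ k : ℕ) * (2 * (W₀ : ℝ) + 1)) ≤ 1)
    (hT₀big : 4 * D₀ * (1 + k * (2 * y₁ + 1) ^ 2) < T₀)
    (a b c' : ℝ) (hab : a ^ 2 + b ^ 2 = 1) (n : ℕ) (x y : ℕ → ℤ)
    (hx : ∀ i < n, |x (i + 1) - x i| ≤ D₀) (hy : ∀ i < n, |y (i + 1) - y i| ≤ D₀)
    (hinj : ∀ i ≤ n, ∀ j ≤ n, x i = x j → y i = y j → i = j)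
    (hgood : ∀ i ≤ n, (y₁ : ℤ) < x i ^ 2 + y i ^ 2 → ∀ p ∈ Q, ∀ r : ZMod p, r * r = -1 →
      phi r (x i) (y i) ≠ 0)
    (hstrip : ∀ i ≤ n, |a * (x i : ℝ) + b * (y i : ℝ) - c'| ≤ W₀)
    (u₁ u₂ v₁ v₂ : ℤ) (huv : u₁ * v₁ + u₂ * v₂ = 1)
    (hclose : |a * (u₁ : ℝ) + b * (u₂ : ℝ)| ≤ 1 / ((T₀ : ℝ) + 1)) :
    (u₁ * x n + u₂ * y n) - (u₁ * x 0 + u₂ * y 0)
      < (u₁ ^ 2 + u₂ ^ 2) * T₀ + (k + 2) * ((u₁.natAbs + u₂.natAbs : ℕ) * D₀ : ℤ) := by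
  classical
  by_contra hcon
  push Not at hcon
  have hUpos : 0 < u₁ ^ 2 + u₂ ^ 2 := by
    have h0 : u₁ ≠ 0 ∨ u₂ ≠ 0 := by
      by_contra h
      push Not at h
      rw [h.1, h.2] at huv
      simp at huv
    rcases h0 with h | h
    · have := sq_pos_of_ne_zero h
      positivity
    · have := sq_pos_of_ne_zero h
      positivity
  set ωN : ℕ := u₁.natAbs + u₂.natAbs with hωN
  have hωZ : (ωN : ℤ) = |u₁| + |u₂| := by simp [hωN]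
  have hωpos : 1 ≤ ωN := by
    by_contra h0
    have h1 : u₁.natAbs = 0 := by omega
    have h2 : u₂.natAbs = 0 := by omega
    have h3 : u₁ = 0 := Int.natAbs_eq_zero.mp h1
    have h4 : u₂ = 0 := Int.natAbs_eq_zero.mp h2
    rw [h3, h4] at hUpos
    simp at hUpos
  have hω2 : (ωN : ℤ) ^ 2 ≤ 2 * (u₁ ^ 2 + u₂ ^ 2) := by
    rw [hωZ]
    nlinarith [sq_abs u₁, sq_abs u₂, sq_nonneg (|u₁| - |u₂|)]
  set G₁ : ℕ := ωN * D₀ with hG₁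
  have hG₁pos : 1 ≤ G₁ := Nat.mul_pos hωpos hD
  set s : ℕ → ℤ := fun i => u₁ * x i + u₂ * y i with hsdef
  have hsstep : ∀ i < n, |s (i + 1) - s i| ≤ G₁ := by
    intro i hi
    have e : s (i + 1) - s i = u₁ * (x (i + 1) - x i) + u₂ * (y (i + 1) - y i) := by
      simp only [hsdef]; ring
    rw [e]
    refine (abs_add_le _ _).trans ?_
    rw [abs_mul, abs_mul, hG₁]
    push_cast
    rw [hωZ]
    have h1 := hx i hi
    have h2 := hy i hi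
    have h3 := mul_le_mul_of_nonneg_left h1 (abs_nonneg u₁)
    have h4 := mul_le_mul_of_nonneg_left h2 (abs_nonneg u₂)
    have e2 : (|u₁| + |u₂|) * (D₀ : ℤ) = |u₁| * D₀ + |u₂| * D₀ := by ring
    rw [e2]
    linarith
  set UN : ℕ := (u₁ ^ 2 + u₂ ^ 2).toNat with hUN
  have hUNz : (UN : ℤ) = u₁ ^ 2 + u₂ ^ 2 := Int.toNat_of_nonneg hUpos.le
  set J : ℕ := UN * T₀ / G₁ with hJ
  have hJ1 : J * G₁ ≤ UN * T₀ := Nat.div_mul_le_self _ _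
  have hJ2 : UN * T₀ < (J + 1) * G₁ := by
    have := Nat.lt_div_mul_add (a := UN * T₀) hG₁pos
    rw [← hJ] at this
    have e : (J + 1) * G₁ = J * G₁ + G₁ := by ring
    omega
  have hJ1z : (J : ℤ) * G₁ ≤ (u₁ ^ 2 + u₂ ^ 2) * T₀ := by
    rw [← hUNz]; exact_mod_cast hJ1
  set A : ℤ := s 0 + G₁ with hA
  have hG₁z : (1 : ℤ) ≤ (G₁ : ℤ) := by exact_mod_cast hG₁pos
  have hk0 : (0 : ℤ) ≤ (k : ℤ) * G₁ := by positivity
  have hcon' : s 0 + ((u₁ ^ 2 + u₂ ^ 2) * T₀ + (k + 2) * (G₁ : ℤ)) ≤ s n := by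
    have e : ((G₁ : ℕ) : ℤ) = ((u₁.natAbs + u₂.natAbs : ℕ) * D₀ : ℤ) := by
      simp only [hG₁, hωN]; push_cast; ring
    rw [e]
    simp only [hsdef]
    linarith
  have e2 : ((k : ℤ) + 2) * G₁ = k * G₁ + 2 * G₁ := by ring
  obtain ⟨I, hIcard, hIdata⟩ := slab_indices s n G₁ J A (by rw [hA]; linarith)
    (fun i hi => (abs_le.mp (hsstep i hi)).2) (by rw [hA]; linarith)
  have hIk : ∀ i ∈ I, i + k ≤ n := by
    intro i hi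
    by_contra hlt
    push Not at hlt
    obtain ⟨h1, h2, h3⟩ := hIdata i hi
    obtain ⟨d, hd⟩ := Nat.exists_eq_add_of_le h1
    have hdk : d < k := by omega
    have hst := abs_diff_le_steps s G₁ n hsstep i d (by omega)
    rw [← hd] at hst
    have h4 := (abs_le.mp hst).2
    have h5 : (d : ℤ) ≤ k := by exact_mod_cast hdk.le
    have h6 : (d : ℤ) * G₁ ≤ k * G₁ := mul_le_mul_of_nonneg_right h5 (by positivity)
    have hAe : A = s 0 + G₁ := hA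
    linarith
  set Good := I.filter (fun i => ∀ m < k, ¬ (x (i + m) ^ 2 + y (i + m) ^ 2 ≤ y₁)) with hGood
  set Bad := I.filter (fun i => ¬ ∀ m < k, ¬ (x (i + m) ^ 2 + y (i + m) ^ 2 ≤ y₁)) with hBad
  have hsplit : Good.card + Bad.card = I.card := Finset.card_filter_add_card_filter_not _
  have hBadCard : Bad.card ≤ (2 * y₁ + 1) ^ 2 * k := bad_count n k y₁ x y hinj I hIk
  have hGoodI : ∀ i ∈ Good, i ∈ I := fun i hi => (Finset.mem_filter.mp hi).1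
  have hGoodphi : ∀ i ∈ Good, ∀ p ∈ Q, ∀ r : ZMod p, r * r = -1 → ∀ m < k,
      phi r (x (i + m)) (y (i + m)) ≠ 0 := by
    intro i hi p hp r hr m hm
    have h1 := (Finset.mem_filter.mp hi).2 m hm
    have hik := hIk i (hGoodI i hi)
    exact hgood (i + m) (by omega) (by omega) p hp r hr
  set R : ℕ := 2 * ωN * (2 * W₀ + 1) with hR
  have hspread : ∀ i ∈ Good, ∀ i' ∈ Good,
      |(u₂ * x i - u₁ * y i) - (u₂ * x i' - u₁ * y i')| ≤ (R : ℤ) := by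
    intro i hi i' hi'
    obtain ⟨h1, h2, h3⟩ := hIdata i (hGoodI i hi)
    obtain ⟨h1', h2', h3'⟩ := hIdata i' (hGoodI i' hi')
    refine spread_int a b c' hab W₀ T₀ hT₀ u₁ u₂ hUpos hclose _ _ _ _ (hstrip i h1) (hstrip i' h1') ?_
    have h4 : A ≤ u₁ * x i + u₂ * y i := h2
    have h5 : u₁ * x i + u₂ * y i < A + J * G₁ := h3
    have h6 : A ≤ u₁ * x i' + u₂ * y i' := h2'
    have h7 : u₁ * x i' + u₂ * y i' < A + J * G₁ := h3'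
    rw [abs_le]
    constructor <;> linarith
  obtain ⟨Lines, hLinesCard, hGline⟩ := exists_lines Good (fun i => u₂ * x i - u₁ * y i) R hspread
  have hGwin : ∀ i ∈ Good, A ≤ u₁ * x i + u₂ * y i ∧
      u₁ * x i + u₂ * y i < A + (u₁ ^ 2 + u₂ ^ 2) * T₀ := by
    intro i hi
    obtain ⟨_, h2, h3⟩ := hIdata i (hGoodI i hi)
    refine ⟨h2, ?_⟩
    have h5 : u₁ * x i + u₂ * y i < A + J * G₁ := h3
    linarith
  have hcount := chain_count n k D₀ x y Q hQp hQ4 hQbig T₀ ε hε hs u₁ u₂ v₁ v₂ huv hUpos hinj hx hy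
    Good Lines A (fun i hi => hIk i (hGoodI i hi)) hGoodphi hGline hGwin
  rw [hLinesCard] at hcount
  refine crossing_arith D₀ k y₁ T₀ W₀ ωN J Good.card UN G₁ R hD hωpos hT₀ ε
    (((2 * D₀ + 1) ^ 2) ^ k : ℕ) (by positivity) hε hG₁ hR hεsmall hT₀big hcount hJ2 ?_ ?_
  · have : ((ωN ^ 2 : ℕ) : ℤ) ≤ ((2 * UN : ℕ) : ℤ) := by
      push_cast
      rw [hUNz]
      exact hω2
    exact_mod_cast this
  · omega

end Vale.Agent.Lib.P015
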