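import Vale.Agent.Lib.P015.Strip5

open Finset

namespace Vale.Agent.Lib.P015

/-- Crossing bound for a strip, in any direction. -/
lemma strip_core (D₀ k : ℕ) (hD : 1 ≤ D₀) (Q : Finset ℕ)
    (hQp : ∀ p ∈ Q, p.Prime) (hQ4 : ∀ p ∈ Q, p % 4 = 1)
    (hQbig : ∀ p ∈ Q, 2 * (k * D₀) ^ 2 < p)
    (y₁ : ℕ) (T₀ : ℕ) (hT₀ : 0 < T₀) (ε : ℝ) (hε : 0 ≤ ε) (hs : LineSieve k Q T₀ ε)
    (W₀ : ℕ)
    (hεsmall : ε * (20 * (D₀ : ℝ) * (((2 * D₀ + 1) ^ 2) ^ k : ℕ) * (2 * (W₀ : ℝ) + 1)) ≤ 1)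
    (hT₀big : 4 * D₀ * (1 + k * (2 * y₁ + 1) ^ 2) < T₀)
    (a b c' : ℝ) (hab : a ^ 2 + b ^ 2 = 1) (n : ℕ) (x y : ℕ → ℤ)
    (hx : ∀ i < n, |x (i + 1) - x i| ≤ D₀) (hy : ∀ i < n, |y (i + 1) - y i| ≤ D₀)
    (hinj : ∀ i ≤ n, ∀ j ≤ n, x i = x j → y i = y j → i = j)
    (hgood : ∀ i ≤ n, (y₁ : ℤ) < x i ^ 2 + y i ^ 2 → ∀ p ∈ Q, ∀ r : ZMod p, r * r = -1 →
      phi r (x i) (y i) ≠ 0)
    (hstrip : ∀ i ≤ n, |a * (x i : ℝ) + b * (y i : ℝ) - c'| ≤ W₀) :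
    ((x n : ℝ) - x 0) ^ 2 + ((y n : ℝ) - y 0) ^ 2
      ≤ (2 * (2 * (W₀ : ℝ) + (2 * (2 * (T₀ : ℝ) + 1) ^ 2 * T₀
          + (k + 2) * (2 * (2 * (T₀ : ℝ) + 1) * D₀)))) ^ 2 := by
  obtain ⟨u₁, u₂, hco, hu₁, hu₂, hclose⟩ := exists_direction a b hab T₀ hT₀
  obtain ⟨v₁, v₂, hv⟩ := hco
  have huv : u₁ * v₁ + u₂ * v₂ = 1 := by linarith
  have huv' : (-u₁) * (-v₁) + (-u₂) * (-v₂) = 1 := by linarith
  have hclose' : |a * ((-u₁ : ℤ) : ℝ) + b * ((-u₂ : ℤ) : ℝ)| ≤ 1 / ((T₀ : ℝ) + 1) := by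
    have e : a * ((-u₁ : ℤ) : ℝ) + b * ((-u₂ : ℤ) : ℝ) = -(a * (u₁ : ℝ) + b * (u₂ : ℝ)) := by
      push_cast; ring
    rw [e, abs_neg]; exact hclose
  have h1 := no_long_crossing D₀ k hD Q hQp hQ4 hQbig y₁ T₀ hT₀ ε hε hs W₀ hεsmall hT₀big
    a b c' hab n x y hx hy hinj hgood hstrip u₁ u₂ v₁ v₂ huv hclose
  have h2 := no_long_crossing D₀ k hD Q hQp hQ4 hQbig y₁ T₀ hT₀ ε hε hs W₀ hεsmall hT₀big
    a b c' hab n x y hx hy hinj hgood hstrip (-u₁) (-u₂) (-v₁) (-v₂) huv' hclose'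
  have e1 : ((-u₁).natAbs + (-u₂).natAbs : ℕ) = (u₁.natAbs + u₂.natAbs : ℕ) := by
    simp
  rw [e1] at h2
  have e2 : (-u₁) ^ 2 + (-u₂) ^ 2 = u₁ ^ 2 + u₂ ^ 2 := by ring
  rw [e2] at h2
  set T : ℤ := 2 * T₀ + 1 with hT
  have hT1 : (1 : ℤ) ≤ T := by
    have : (0 : ℤ) ≤ (T₀ : ℤ) := by positivity
    rw [hT]; linarith
  have hU : u₁ ^ 2 + u₂ ^ 2 ≤ 2 * T ^ 2 := by
    have a1 := sq_le_sq' (by linarith [(abs_le.mp hu₁).1]) (abs_le.mp hu₁).2
    have a2 := sq_le_sq' (by linarith [(abs_le.mp hu₂).1]) (abs_le.mp hu₂).2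
    linarith
  have hω : ((u₁.natAbs + u₂.natAbs : ℕ) : ℤ) ≤ 2 * T := by
    push_cast
    linarith
  have hΛ : (u₁ ^ 2 + u₂ ^ 2) * T₀ + (k + 2) * ((u₁.natAbs + u₂.natAbs : ℕ) * D₀ : ℤ)
      ≤ 2 * T ^ 2 * T₀ + (k + 2) * (2 * T * D₀) := by
    have a1 : (u₁ ^ 2 + u₂ ^ 2) * T₀ ≤ 2 * T ^ 2 * T₀ :=
      mul_le_mul_of_nonneg_right hU (by positivity)
    have a2 : ((u₁.natAbs + u₂.natAbs : ℕ) * D₀ : ℤ) ≤ 2 * T * D₀ :=
      mul_le_mul_of_nonneg_right hω (by positivity)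
    have a3 : ((k : ℤ) + 2) * ((u₁.natAbs + u₂.natAbs : ℕ) * D₀ : ℤ) ≤ (k + 2) * (2 * T * D₀) :=
      mul_le_mul_of_nonneg_left a2 (by positivity)
    linarith
  have hsZ : |u₁ * (x n - x 0) + u₂ * (y n - y 0)| ≤ 2 * T ^ 2 * T₀ + (k + 2) * (2 * T * D₀) := by
    rw [abs_le]
    constructor <;> linarith
  have hsR : |(u₁ : ℝ) * ((x n : ℝ) - x 0) + (u₂ : ℝ) * ((y n : ℝ) - y 0)|
      ≤ 2 * (2 * (T₀ : ℝ) + 1) ^ 2 * T₀ + (k + 2) * (2 * (2 * (T₀ : ℝ) + 1) * D₀) := by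
    have := (Int.cast_le (R := ℝ)).mpr hsZ
    simp only [hT] at this
    push_cast at this
    exact this
  have hUpos : (1 : ℝ) ≤ (u₁ : ℝ) ^ 2 + (u₂ : ℝ) ^ 2 := by
    have h0 : u₁ ≠ 0 ∨ u₂ ≠ 0 := by
      by_contra h
      push Not at h
      rw [h.1, h.2] at huv
      simp at huv
    have : (1 : ℤ) ≤ u₁ ^ 2 + u₂ ^ 2 := by
      rcases h0 with h | h
      · have := sq_pos_of_ne_zero h
        have := sq_nonneg u₂
        linarith
      · have := sq_pos_of_ne_zero h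
        have := sq_nonneg u₁
        linarith
    exact_mod_cast this
  have hT₀r : (1 : ℝ) ≤ (T₀ : ℝ) := by exact_mod_cast hT₀
  have he : |a * (u₁ : ℝ) + b * (u₂ : ℝ)| ≤ 1 / 2 := by
    refine hclose.trans ?_
    apply one_div_le_one_div_of_le <;> linarith
  refine final_distance a b hab (u₁ : ℝ) (u₂ : ℝ) hUpos he (W₀ : ℝ) _ (by positivity) (by positivity)
    ((x n : ℝ) - x 0) ((y n : ℝ) - y 0) ?_ hsR
  have hs1 := abs_le.mp (hstrip n le_rfl)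
  have hs2 := abs_le.mp (hstrip 0 (Nat.zero_le _))
  have e : a * ((x n : ℝ) - x 0) + b * ((y n : ℝ) - y 0)
      = (a * (x n : ℝ) + b * (y n : ℝ) - c') - (a * (x 0 : ℝ) + b * (y 0 : ℝ) - c') := by ring
  rw [e, abs_le]
  constructor <;> linarith [hs1.1, hs1.2, hs2.1, hs2.2]

/-- Loop erasure: any walk contains a self-avoiding walk with the same endpoints. -/
lemma loop_erase {α : Type*} (R : α → α → Prop) (z : ℕ → α) (n : ℕ)
    (h : ∀ i < n, R (z i) (z (i + 1))) :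
    ∃ (m : ℕ) (w : ℕ → α), w 0 = z 0 ∧ w m = z n ∧ (∀ i < m, R (w i) (w (i + 1))) ∧
      (∀ i ≤ m, ∃ j ≤ n, w i = z j) ∧ (∀ i ≤ m, ∀ j ≤ m, w i = w j → i = j) := by
  classical
  induction n with
  | zero =>
    exact ⟨0, z, rfl, rfl, fun i hi => absurd hi (by omega), fun i hi => ⟨0, le_rfl, by
      have : i = 0 := by omega
      rw [this]⟩, fun i hi j hj _ => by omega⟩
  | succ n ih =>
    obtain ⟨m, w, h0, hm, hR, hmem, hinj⟩ := ih (fun i hi => h i (by omega))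
    by_cases hex : ∃ j ≤ m, w j = z (n + 1)
    · obtain ⟨j, hj, hje⟩ := hex
      refine ⟨j, w, h0, hje, fun i hi => hR i (by omega), ?_, ?_⟩
      · intro i hi
        obtain ⟨l, hl, hle⟩ := hmem i (by omega)
        exact ⟨l, by omega, hle⟩
      · intro i hi i' hi' he
        exact hinj i (by omega) i' (by omega) he
    · push Not at hex
      refine ⟨m + 1, fun i => if i ≤ m then w i else z (n + 1), ?_, ?_, ?_, ?_, ?_⟩
      · simp [h0]
      · simp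
      · intro i hi
        by_cases him : i < m
        · have h1 : i ≤ m := by omega
          have h2 : i + 1 ≤ m := by omega
          simp only [h1, h2, if_true]
          exact hR i him
        · have him' : i = m := by omega
          subst him'
          simp only [le_refl, if_true]
          have : ¬ (i + 1 ≤ i) := by omega
          simp only [this, if_false]
          rw [hm]
          exact h n (by omega)
      · intro i hi
        by_cases him : i ≤ m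
        · simp only [him, if_true]
          obtain ⟨l, hl, hle⟩ := hmem i him
          exact ⟨l, by omega, hle⟩
        · simp only [him, if_false]
          exact ⟨n + 1, le_rfl, rfl⟩
      · intro i hi j hj he
        by_cases him : i ≤ m <;> by_cases hjm : j ≤ m
        · simp only [him, hjm, if_true] at he
          exact hinj i him j hjm he
        · simp only [him, hjm, if_true, if_false] at he
          exact absurd he (hex i him)
        · simp only [him, hjm, if_true, if_false] at he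
          exact absurd he.symm (hex j hjm)
        · omega

end Vale.Agent.Lib.P015
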